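import Vale.Agent.P146.U.H985.Gr5
import Vale.Agent.P146.H713.Ftc

/-!
The heat formula `d/ds E_{θ,η} |D_s|² = E_{θ,η} |Hess u_s|²` with an outer exponent, from the old one
with a weight, and the growth of the mean squared gradient at a regular datum.
-/

open MeasureTheory ProbabilityTheory

namespace Vale.Agent.P146.U.R1.Gr

open Vale.Agent.P157.Lv Vale.Agent.P146.H425 Vale.Agent.P146.R1 Vale.Agent.P146.H785

set_option linter.unusedSectionVars false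

variable {κ : Type} [Fintype κ] [DecidableEq κ] {F : (κ → ℝ) → ℝ} {D : κ → (κ → ℝ) → ℝ}
  {H TT : κ → κ → (κ → ℝ) → ℝ} {B L M x θ η t0 t1 s a b : ℝ}
  {Ψ : (κ → ℝ) → (κ → ℝ) → (κ → ℝ) → ℝ}

/-- the weight of the outer exponent -/
noncomputable def wo (x η t0 : ℝ) (F : (κ → ℝ) → ℝ) (z0 _z1 : κ → ℝ) : ℝ :=
  Real.exp (-(η * (x * uu x t0 F z0)))

lemma e3_wo (h : C11 F D B L) (hx : 0 < x) (η t0 : ℝ) :
    E3 fun z0 z1 (_ : κ → ℝ) => wo x η t0 F z0 z1 := by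
  have l0 : Lip (uu x t0 F) := (c11_uu h hx t0).lip.lip h.B0
  have g : EG fun z : κ → ℝ => Real.exp (-(η * (x * uu x t0 F z))) := by
    have h1 := l0.exp_eg (-(η * x))
    have e : (fun z : κ → ℝ => Real.exp (-(η * (x * uu x t0 F z)))) =
        fun z => Real.exp (-(η * x) * uu x t0 F z) := by
      funext z; congr 1; ring
    rw [e]; exact h1
  exact E3.of0 g

/-- the mean with an outer exponent is an old mean with a weight -/
lemma Eu_old : Eu x θ η t0 t1 s F Ψ = Vale.Agent.P146.R1.Eu x θ t0 t1 s F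
    (fun z0 z1 z2 => wo x η t0 F z0 z1 * Ψ z0 z1 z2) := by
  unfold Eu Vale.Agent.P146.R1.Eu
  refine integral_congr_ae (Filter.Eventually.of_forall fun w => ?_)
  simp only
  unfold dn Vale.Agent.P146.R1.dn wo
  rw [sub_eq_add_neg, Real.exp_add, mul_assoc]

/-- `E_{θ,η} |Hess u_s|²` -/
noncomputable def Ht (x θ η t0 t1 s : ℝ) (F : (κ → ℝ) → ℝ) (D : κ → (κ → ℝ) → ℝ)
    (H : κ → κ → (κ → ℝ) → ℝ) : ℝ := Et x θ η t0 t1 s F (fun _ _ z2 => hq x s F D H z2)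

lemma Qt_eq (h : C11 F D B L) (hx : 0 < x) (hs : s ∈ Set.Icc t1 1) :
    Qt x θ η t0 t1 s F D = Vale.Agent.P146.R1.Eu x θ t0 t1 s F
      (fun z0 z1 z2 => wo x η t0 F z0 z1 * sq x s F D z2) /
        Eu x θ η t0 t1 t1 F (fun _ _ _ => 1) := by
  unfold Qt Et
  rw [Eu_one_eq h hx hs.1 hs.2, Eu_old]

lemma Ht_eq (h : C11 F D B L) (hx : 0 < x) (hs : s ∈ Set.Icc t1 1) :
    Ht x θ η t0 t1 s F D H = Vale.Agent.P146.R1.Eu x θ t0 t1 s F
      (fun z0 z1 z2 => wo x η t0 F z0 z1 * hq x s F D H z2) /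
        Eu x θ η t0 t1 t1 F (fun _ _ _ => 1) := by
  unfold Ht Et
  rw [Eu_one_eq h hx hs.1 hs.2, Eu_old]

/-- **The heat formula** `d/ds E_{θ,η} |D_s|² = E_{θ,η} |Hess u_s|²` -/
theorem Qt_deriv (hS : Sm F D B L H TT M) (hx : 0 < x) (θ η t0 : ℝ) (hs : s ∈ Set.Ioo t1 1) :
    HasDerivAt (fun s => Qt x θ η t0 t1 s F D) (Ht x θ η t0 t1 s F D H) s := by
  have k := (Eu_sq_deriv (θ := θ) (t0 := t0) (Y := wo x η t0 F) hS hx
    (e3_wo hS.c11 hx η t0) hs).div_const (Eu x θ η t0 t1 t1 F (fun _ _ _ => 1))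
  rw [← Ht_eq hS.c11 hx ⟨hs.1.le, hs.2.le⟩] at k
  refine k.congr_of_eventuallyEq ?_
  filter_upwards [Ioo_mem_nhds hs.1 hs.2] with r hr
  exact Qt_eq hS.c11 hx ⟨hr.1.le, hr.2.le⟩

theorem Qt_cont (hS : Sm F D B L H TT M) (hx : 0 < x) (θ η t0 : ℝ) (h1 : t1 < 1) :
    ContinuousOn (fun s => Qt x θ η t0 t1 s F D) (Set.Icc t1 1) := by
  refine ((Eu_sq_cont (Y := wo x η t0 F) hS hx (e3_wo hS.c11 hx η t0) h1 θ t0).div_const
    (Eu x θ η t0 t1 t1 F (fun _ _ _ => 1))).congr fun s hs => ?_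
  exact Qt_eq hS.c11 hx hs

theorem Ht_cont (hS : Sm F D B L H TT M) (hx : 0 < x) (θ η t0 : ℝ) (h1 : t1 < 1) :
    ContinuousOn (fun s => Ht x θ η t0 t1 s F D H) (Set.Icc t1 1) := by
  refine ((Eu_hq_cont (Y := wo x η t0 F) hS hx (e3_wo hS.c11 hx η t0) h1 θ t0).div_const
    (Eu x θ η t0 t1 t1 F (fun _ _ _ => 1))).congr fun s hs => ?_
  exact Ht_eq hS.c11 hx hs

lemma Ht_int (hS : Sm F D B L H TT M) (hx : 0 < x) (θ η t0 : ℝ) (h1 : t1 < 1)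
    (ha : t1 ≤ a) (hab : a ≤ b) (hb : b ≤ 1) :
    IntervalIntegrable (fun s => Ht x θ η t0 t1 s F D H) volume a b := by
  refine ContinuousOn.intervalIntegrable ?_
  rw [Set.uIcc_of_le hab]
  exact (Ht_cont hS hx θ η t0 h1).mono (Set.Icc_subset_Icc ha hb)

theorem Qt_ftc (hS : Sm F D B L H TT M) (hx : 0 < x) (θ η t0 : ℝ) (h1 : t1 < 1)
    (ha : t1 ≤ a) (hab : a ≤ b) (hb : b ≤ 1) :
    ∫ s in a..b, Ht x θ η t0 t1 s F D H = Qt x θ η t0 t1 b F D - Qt x θ η t0 t1 a F D := by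
  refine intervalIntegral.integral_eq_sub_of_hasDerivAt_of_le hab
    ((Qt_cont hS hx θ η t0 h1).mono (Set.Icc_subset_Icc ha hb)) (fun s hs => ?_)
    (Ht_int hS hx θ η t0 h1 ha hab hb)
  exact Qt_deriv hS hx θ η t0 ⟨ha.trans_lt hs.1, hs.2.trans_le hb⟩

lemma Ht_nonneg (h : C11 F D B L) (hx : 0 < x) (θ η t0 t1 s : ℝ) :
    0 ≤ Ht x θ η t0 t1 s F D H := Et_nonneg h hx fun _ _ _ => hq_nonneg _

/-- `E_{θ,η} |D_s|²` is nondecreasing for `s ≥ t1`. -/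
theorem Qt_mono (hS : Sm F D B L H TT M) (hx : 0 < x) (θ η t0 : ℝ) (h1 : t1 < 1)
    (ha : t1 ≤ a) (hab : a ≤ b) (hb : b ≤ 1) :
    Qt x θ η t0 t1 a F D ≤ Qt x θ η t0 t1 b F D := by
  have := Qt_ftc hS hx θ η t0 h1 ha hab hb
  have h2 : 0 ≤ ∫ s in a..b, Ht x θ η t0 t1 s F D H :=
    intervalIntegral.integral_nonneg hab fun s _ => Ht_nonneg hS.c11 hx θ η t0 t1 s
  linarith

/-- From a lower bound of the rate to the growth. -/
theorem Qt_growth (hS : Sm F D B L H TT M) (hx : 0 < x) (θ η t0 : ℝ) (h1 : t1 < 1)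
    (ha : t1 ≤ a) (hab : a ≤ b) (hb : b ≤ 1) {m : ℝ}
    (hm : ∀ s ∈ Set.Icc a b, m ≤ Ht x θ η t0 t1 s F D H) :
    m * (b - a) ≤ Qt x θ η t0 t1 b F D - Qt x θ η t0 t1 a F D := by
  rw [← Qt_ftc hS hx θ η t0 h1 ha hab hb]
  have h2 : ∫ _ in a..b, m = m * (b - a) := by
    rw [intervalIntegral.integral_const, smul_eq_mul, mul_comm]
  rw [← h2]
  exact intervalIntegral.integral_mono_on hab intervalIntegrable_const
    (Ht_int hS hx θ η t0 h1 ha hab hb) hm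

/-- A time with a small rate. -/
theorem exists_rate (hS : Sm F D B L H TT M) (hx : 0 < x) (θ η t0 : ℝ) (h1 : t1 < 1)
    (ha : t1 ≤ a) (hab : a < b) (hb : b ≤ 1) {m : ℝ}
    (hm : Qt x θ η t0 t1 b F D - Qt x θ η t0 t1 a F D ≤ m * (b - a)) :
    ∃ s ∈ Set.Ioo a b, Ht x θ η t0 t1 s F D H ≤ m := by
  have hc : ContinuousOn (fun s => Qt x θ η t0 t1 s F D) (Set.Icc a b) :=
    (Qt_cont hS hx θ η t0 h1).mono (Set.Icc_subset_Icc ha hb)
  obtain ⟨c, hc1, hc2⟩ := exists_hasDerivAt_eq_slope (fun s => Qt x θ η t0 t1 s F D)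
    (fun s => Ht x θ η t0 t1 s F D H) hab hc
    fun s hs => Qt_deriv hS hx θ η t0 ⟨ha.trans_lt hs.1, hs.2.trans_le hb⟩
  refine ⟨c, hc1, ?_⟩
  rw [hc2, div_le_iff₀ (by linarith)]
  exact hm

section reg

variable {T ρ Λ N K : ℝ}

/-- **Growth at a regular datum**: for all `1 - T/2 ≤ a ≤ b ≤ 1`. -/
theorem Reg.growth (r : Reg x η T ρ Λ F) (hθ : Th θ η Λ) (hS : Sm F D B L H TT M) (hc : Cv F)
    (hN : 150 * Λ ≤ N) (hK : 6 ≤ K) (hKT : K * T ≤ 1) (hy : 4 ≤ yy x η T ρ)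
    (hyl : 3 * Real.exp (-(θ * (x ^ 2 * ρ * T) / 16)) ≤ 1 / 2)
    (ha : 1 - T / 2 ≤ a) (hab : a ≤ b) (hb : b ≤ 1)
    (hD : PP ((1 - η) * x) (N * x) (√(1 - K * T)) (√(K * T)) F -
      PP ((1 - η) * x) x (√(1 - T)) (√T) F ≤ N * K / 24576 * (x * ρ * T)) :
    ρ / (512 * K * T) * (b - a) ≤ Qt x θ η (1 - T) (1 - T / 2) b F D -
      Qt x θ η (1 - T) (1 - T / 2) a F D := by
  have hT := r.T0
  have hC2 := sm_c2 hS hc
  refine Qt_growth hS r.x0 θ η (1 - T) (by linarith) ha hab hb fun s hs => ?_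
  have h1 : 1 - T / 2 ≤ s := ha.trans hs.1
  have h2 : s ≤ 1 := hs.2.trans hb
  refine le_trans ?_ (Reg.rate_ge r hθ hC2 hc hN hK hKT hy hyl h1 h2 hD)
  have h3 := r.Q_low hθ hS.c11 hc h1 h2 hyl
  have h4 : ρ / (512 * K * T) = ρ / 512 / (K * T) := by
    rw [div_div]; congr 1; ring
  rw [h4]
  exact div_le_div_of_nonneg_right h3 (by positivity)

/-- **Typical times**: two times with small rates in the window. -/
theorem Reg.times (r : Reg x η T ρ Λ F) (hθ : Th θ η Λ) (hS : Sm F D B L H TT M) (hc : Cv F)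
    (hy : 4 ≤ yy x η T ρ) :
    ∃ s1 s2, 1 - T / 2 < s1 ∧ s1 + T / 8 ≤ s2 ∧ s2 < 1 - T / 4 ∧
      Ht x θ η (1 - T) (1 - T / 2) s1 F D H ≤ 144 * Λ * ρ / T ∧
      Ht x θ η (1 - T) (1 - T / 2) s2 F D H ≤ 144 * Λ * ρ / T := by
  have hT := r.T0
  have hx := r.x0
  have hC := hS.c11
  have key : ∀ a b, 1 - T / 2 ≤ a → b = a + T / 16 → b ≤ 1 - T / 8 →
      ∃ s ∈ Set.Ioo a b, Ht x θ η (1 - T) (1 - T / 2) s F D H ≤ 144 * Λ * ρ / T := by
    intro a b ha hb hb1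
    refine exists_rate hS hx θ η (1 - T) (by linarith) ha (by linarith) (by linarith) ?_
    have h1 := r.Q_up hθ hC hc (by linarith) hb1 hy
    have h2 := Qt_nonneg (θ := θ) (η := η) (t0 := 1 - T) (t1 := 1 - T / 2) (s := a) hC hx
    have h3 : 144 * Λ * ρ / T * (b - a) = 9 * Λ * ρ := by
      rw [hb]
      field_simp
      ring
    rw [h3]
    linarith
  obtain ⟨s1, h1, h1'⟩ := key (1 - T / 2) (1 - T / 2 + T / 16) le_rfl rfl (by linarith)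
  obtain ⟨s2, h2, h2'⟩ := key (1 - T / 4 - T / 16) (1 - T / 4) (by linarith) (by ring)
    (by linarith)
  exact ⟨s1, s2, h1.1, by linarith [h1.2, h2.1], h2.2, h1', h2'⟩

end reg

end Vale.Agent.P146.U.R1.Gr
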