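import Vale.Agent.P146.U.H425_R1Def
import Vale.Agent.P146.U.Ex1
import Vale.Agent.P146.H785.Growth
import Vale.Agent.P146.H425.R1Def4

/-!
Growth of the mean squared gradient along one law of the plan R1 with an outer exponent
(`U/H425_R1Def`): Gaussian facts used for the transport on a longer interval `[l, s]`, `l ≤ t0`.
-/

open MeasureTheory ProbabilityTheory

namespace Vale.Agent.P146.U.R1.Gr

open Vale.Agent.P157.Lv Vale.Agent.P146.H425 Vale.Agent.P146.R1 Vale.Agent.P146.H785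

set_option linter.unusedSectionVars false

variable {κ : Type} [Fintype κ] {F : (κ → ℝ) → ℝ} {D : κ → (κ → ℝ) → ℝ}
  {HF : κ → κ → (κ → ℝ) → ℝ} {B L B2 x θ η l t0 t1 s c k : ℝ}

/-! ### partial integrals -/

lemma meas_elim {α β : Type} : Measurable fun q : (α → ℝ) × (β → ℝ) =>
    (Sum.elim q.1 q.2 : α ⊕ β → ℝ) := by
  refine measurable_pi_lambda _ fun e => ?_
  rcases e with e | e
  · exact (measurable_pi_apply e).comp measurable_fst
  · exact (measurable_pi_apply e).comp measurable_snd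

lemma norm_elim_le {α β : Type} [Fintype α] [Fintype β] (w1 : α → ℝ) (w2 : β → ℝ) :
    ‖(Sum.elim w1 w2 : α ⊕ β → ℝ)‖ ≤ ‖w1‖ + ‖w2‖ := by
  refine (pi_norm_le_iff_of_nonneg (by positivity)).2 fun e => ?_
  have h1 := norm_nonneg w1
  have h2 := norm_nonneg w2
  rcases e with e | e
  · exact (norm_le_pi_norm w1 e).trans (by linarith)
  · exact (norm_le_pi_norm w2 e).trans (by linarith)

lemma eg_int_sum {α β : Type} [Fintype α] [Fintype β] {G : (α ⊕ β → ℝ) → ℝ} (hG : EG G) :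
    EG fun w1 : α → ℝ => ∫ w2 : β → ℝ, G (Sum.elim w1 w2) ∂(gI β) := by
  obtain ⟨C, k, hC, hk, hb⟩ := id hG.bdd
  refine ⟨?_, C * ∫ w2 : β → ℝ, Real.exp (k * ‖w2‖) ∂(gI β), k, ?_, hk, fun w1 => ?_⟩
  · exact (StronglyMeasurable.integral_prod_right' (ν := gI β)
      (f := fun q : (α → ℝ) × (β → ℝ) => G (Sum.elim q.1 q.2))
      (hG.meas.comp meas_elim).stronglyMeasurable).measurable
  · exact mul_nonneg hC (integral_nonneg fun _ => (Real.exp_pos _).le)
  · refine abs_integral_le_integral_abs.trans ?_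
    rw [mul_assoc, ← integral_mul_const, ← integral_const_mul]
    refine integral_mono (eg_elim hG w1).integrable.abs
      (((eg_exp_norm k).integrable.mul_const _).const_mul C) fun w2 => ?_
    refine (hb _).trans ?_
    rw [← Real.exp_add]
    refine mul_le_mul_of_nonneg_left (Real.exp_le_exp.2 ?_) hC
    have := mul_le_mul_of_nonneg_left (norm_elim_le w1 w2) hk
    linarith

/-- The logarithm of a partial integral of the exponential of a Lipschitz function. -/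
lemma lip_log_int {α β : Type} [Fintype α] [Fintype β] {G : (α ⊕ β → ℝ) → ℝ} (hG : Lip G) :
    Lip fun w1 : α → ℝ => Real.log (∫ w2 : β → ℝ, Real.exp (G (Sum.elim w1 w2)) ∂(gI β)) := by
  obtain ⟨C, hC, hb⟩ := id hG
  have hE : EG fun w => Real.exp (G w) := by simpa using hG.exp_eg 1
  have hpos : ∀ w1 : α → ℝ, 0 < ∫ w2 : β → ℝ, Real.exp (G (Sum.elim w1 w2)) ∂(gI β) := fun w1 =>
    integral_exp_pos (eg_elim hE w1).integrable
  have key : ∀ w1 w1' : α → ℝ, Real.log (∫ w2 : β → ℝ, Real.exp (G (Sum.elim w1 w2)) ∂(gI β)) ≤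
      Real.log (∫ w2 : β → ℝ, Real.exp (G (Sum.elim w1' w2)) ∂(gI β)) + C * ‖w1 - w1'‖ := by
    intro w1 w1'
    rw [← Real.log_exp (C * ‖w1 - w1'‖), ← Real.log_mul (hpos w1').ne' (Real.exp_pos _).ne']
    refine Real.log_le_log (hpos w1) ?_
    rw [← integral_mul_const]
    refine integral_mono (eg_elim hE w1).integrable
      ((eg_elim hE w1').integrable.mul_const _) fun w2 => ?_
    simp only
    rw [← Real.exp_add]
    refine Real.exp_le_exp.2 ?_
    have h1 := hb (Sum.elim w1 w2) (Sum.elim w1' w2)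
    have h2 : ‖(Sum.elim w1 w2 : α ⊕ β → ℝ) - Sum.elim w1' w2‖ ≤ ‖w1 - w1'‖ := by
      refine (pi_norm_le_iff_of_nonneg (norm_nonneg _)).2 fun e => ?_
      rcases e with e | e
      · exact norm_le_pi_norm (w1 - w1') e
      · simp
    have h3 := mul_le_mul_of_nonneg_left h2 hC
    have h4 := (abs_le.1 h1).2
    linarith
  refine ⟨C, hC, fun w1 w1' => abs_le.2 ⟨?_, ?_⟩⟩
  · have := key w1' w1
    rw [norm_sub_rev] at this
    linarith
  · have := key w1 w1'
    linarith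

/-! ### four positions, the last three of them -/

lemma eg_p123 {Φ : (κ → ℝ) → (κ → ℝ) → (κ → ℝ) → ℝ} (hΦ : E3 Φ) (l t0 t1 s : ℝ) :
    EG fun w : K4 κ → ℝ => Φ (p1 l t0 w) (p2 l t0 t1 w) (p3 l t0 t1 s w) := by
  have h1 := eg_comp hΦ (A := fun w : K4 κ → ℝ =>
      (Sum.elim (p1 l t0 w) (Sum.elim (p2 l t0 t1 w) (p3 l t0 t1 s w)) : K3 κ → ℝ))
    (c := √l + √(t0 - l) + √(t1 - t0) + √(s - t1)) ?_ (by positivity) fun w => ?_
  · exact h1
  · refine measurable_pi_lambda _ fun e => ?_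
    rcases e with e | e | e
    · exact (measurable_pi_apply e).comp (meas_p1 l t0)
    · exact (measurable_pi_apply e).comp (meas_p2 l t0 t1)
    · exact (measurable_pi_apply e).comp (meas_p3 l t0 t1 s)
  · refine (pi_norm_le_iff_of_nonneg (by positivity)).2 fun e => ?_
    have h0 := norm_nonneg w
    have k0 := Real.sqrt_nonneg l
    have k1 := Real.sqrt_nonneg (t0 - l)
    have k2 := Real.sqrt_nonneg (t1 - t0)
    have k3 := Real.sqrt_nonneg (s - t1)
    rcases e with e | e | e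
    · refine ((norm_le_pi_norm (p1 l t0 w) e).trans (norm_p1 l t0 w)).trans ?_
      exact mul_le_mul_of_nonneg_right (by linarith) h0
    · refine ((norm_le_pi_norm (p2 l t0 t1 w) e).trans (norm_p2 l t0 t1 w)).trans ?_
      exact mul_le_mul_of_nonneg_right (by linarith) h0
    · exact (norm_le_pi_norm (p3 l t0 t1 s w) e).trans (norm_p3 l t0 t1 s w)

/-- The first two blocks of the position at the time `t0` are one. -/
lemma int_K4_K3 {Φ : (κ → ℝ) → (κ → ℝ) → (κ → ℝ) → ℝ} (hΦ : E3 Φ) (hl : 0 ≤ l) (hlt : l ≤ t0) :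
    ∫ w : K4 κ → ℝ, Φ (p1 l t0 w) (p2 l t0 t1 w) (p3 l t0 t1 s w) ∂(gI (K4 κ)) =
      ∫ w : K3 κ → ℝ, Φ (q0 t0 w) (q1 t0 t1 w) (q2 t0 t1 s w) ∂(gI (K3 κ)) := by
  have hG : EG fun w : K3 κ → ℝ => Φ (b0 w) (b0 w + √(t1 - t0) • b1 w)
      (b0 w + √(t1 - t0) • b1 w + √(s - t1) • b2 w) := by
    have h1 := hΦ.eg_q 1 (1 + (t1 - t0)) (1 + (s - t0))
    have e1 : 1 + (t1 - t0) - 1 = t1 - t0 := by ring
    have e2 : 1 + (s - t0) - (1 + (t1 - t0)) = s - t1 := by ring
    unfold q2 q1 q0 at h1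
    rw [e1, e2, Real.sqrt_one] at h1
    simpa only [one_smul] using h1
  have hh := eg_int_sum hG
  set h : (κ → ℝ) → ℝ := fun z => ∫ w2 : κ ⊕ κ → ℝ,
    (fun w : K3 κ → ℝ => Φ (b0 w) (b0 w + √(t1 - t0) • b1 w)
      (b0 w + √(t1 - t0) • b1 w + √(s - t1) • b2 w)) (Sum.elim z w2) ∂(gI (κ ⊕ κ)) with hhd
  have r1 : ∫ w : K3 κ → ℝ, Φ (q0 t0 w) (q1 t0 t1 w) (q2 t0 t1 s w) ∂(gI (K3 κ)) =
      ∫ y, h (√t0 • y) ∂(gI κ) := int_sum (hΦ.eg_q t0 t1 s)
  have hP := eg_p123 hΦ l t0 t1 s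
  have r2 : ∫ w : K4 κ → ℝ, Φ (p1 l t0 w) (p2 l t0 t1 w) (p3 l t0 t1 s w) ∂(gI (K4 κ)) =
      ∫ y, (∫ y', h (√l • y + √(t0 - l) • y') ∂(gI κ)) ∂(gI κ) := by
    rw [int_sum hP]
    refine integral_congr_ae (Filter.Eventually.of_forall fun y0 => ?_)
    exact int_sum (eg_elim hP y0)
  have r3 := gI_rot hh (a := √l) (b := √(t0 - l)) (c := √t0) (by
    rw [Real.sq_sqrt hl, Real.sq_sqrt (by linarith), Real.sq_sqrt (by linarith)]; ring) 0
  simp only [zero_add] at r3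
  rw [r1, r2, r3]

end Vale.Agent.P146.U.R1.Gr
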