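import Vale.Agent.P146.U.H985.Gr

/-!
Growth of the mean squared gradient, outer exponent: the transport inequality on `[l, s]`,
conditionally on the position at the time `l`.
-/

open MeasureTheory ProbabilityTheory

namespace Vale.Agent.P146.U.R1.Gr

open Vale.Agent.P157.Lv Vale.Agent.P146.H425 Vale.Agent.P146.R1 Vale.Agent.P146.H785

set_option linter.unusedSectionVars false

variable {κ : Type} [Fintype κ] {F : (κ → ℝ) → ℝ} {D : κ → (κ → ℝ) → ℝ}
  {HF : κ → κ → (κ → ℝ) → ℝ} {B L B2 x θ η l t0 t1 s c k : ℝ}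

/-! ### translation -/

lemma c2_trans (h : C2 F D HF B L B2) (p : κ → ℝ) :
    C2 (fun z => F (p + z)) (fun e z => D e (p + z)) (fun e f z => HF e f (p + z)) B L B2 := by
  have m : Measurable fun z : κ → ℝ => p + z := measurable_const.add measurable_id
  refine ⟨⟨h.c1.B0, h.c1.L0, h.c1.lip.comp_add p, fun e => (h.c1.meas e).comp m,
    fun e z => h.c1.bd e _, fun y w => ?_⟩, fun e z => ?_, fun e f => (h.meas e f).comp m,
    fun e f z => h.bd e f _, fun e f z => h.sym e f _, fun z v => h.ps (p + z) v⟩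
  · have := h.c1.quad (p + y) w
    rwa [add_assoc] at this
  · have h1 := h.dv e (p + z)
    have h2 : HasFDerivAt (fun z : κ → ℝ => p + z) (ContinuousLinearMap.id ℝ (κ → ℝ)) z :=
      (hasFDerivAt_id z).const_add p
    have h3 := h1.comp z h2
    simpa [Function.comp_def] using h3

/-! ### the density -/

/-- The logarithm of the density, not normalized. -/
noncomputable def om (x θ η t0 t1 s : ℝ) (F : (κ → ℝ) → ℝ) (z0 z1 z2 : κ → ℝ) : ℝ :=
  x * uu x s F z2 + θ * xi x t0 t1 F z0 z1 - η * (x * uu x t0 F z0)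

lemma exp_om (z0 z1 z2 : κ → ℝ) :
    Real.exp (om x θ η t0 t1 s F z0 z1 z2) = dn x θ η t0 t1 s F z0 z1 z2 := rfl

lemma lip_om (h : C11 F D B L) (hx : 0 < x) (θ η t0 t1 s : ℝ) :
    Lip fun w : K3 κ → ℝ => om x θ η t0 t1 s F (b0 w) (b1 w) (b2 w) := by
  have l : ∀ t, Lip (uu x t F) := fun t => (c11_uu h hx t).lip.lip h.B0
  have l0 : Lip fun w : K3 κ → ℝ => uu x t0 F (b0 w) :=
    lip_b (l t0) zero_le_one fun w w' => by rw [one_mul]; exact norm_b0 (w - w')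
  have l1 : Lip fun w : K3 κ → ℝ => uu x t1 F (b1 w) :=
    lip_b (l t1) zero_le_one fun w w' => by rw [one_mul]; exact norm_b1 (w - w')
  have l2 : Lip fun w : K3 κ → ℝ => uu x s F (b2 w) :=
    lip_b (l s) zero_le_one fun w w' => by rw [one_mul]; exact norm_b2 (w - w')
  have h1 := ((l2.const_mul x).add ((l1.add (l0.const_mul (-1))).const_mul (θ * x))).add
    (l0.const_mul (-(η * x)))
  have e : (fun w : K3 κ → ℝ => om x θ η t0 t1 s F (b0 w) (b1 w) (b2 w)) =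
      fun w => x * uu x s F (b2 w) +
        θ * x * (uu x t1 F (b1 w) + -1 * uu x t0 F (b0 w)) + -(η * x) * uu x t0 F (b0 w) := by
    funext w
    unfold om xi
    ring
  rw [e]
  exact h1

lemma lip_p123 {Φ : (κ → ℝ) → (κ → ℝ) → (κ → ℝ) → ℝ}
    (hΦ : Lip fun w : K3 κ → ℝ => Φ (b0 w) (b1 w) (b2 w)) (l t0 t1 s : ℝ) :
    Lip fun w : K4 κ → ℝ => Φ (p1 l t0 w) (p2 l t0 t1 w) (p3 l t0 t1 s w) := by
  have h1 := lip_b hΦ (A := fun w : K4 κ → ℝ =>
      (Sum.elim (p1 l t0 w) (Sum.elim (p2 l t0 t1 w) (p3 l t0 t1 s w)) : K3 κ → ℝ))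
    (c := √l + √(t0 - l) + √(t1 - t0) + √(s - t1)) (by positivity) fun w w' => ?_
  · exact h1
  · have a1 : p1 l t0 w - p1 l t0 w' = p1 l t0 (w - w') := by
      funext e
      simp only [p1, p0, c0, c1, Pi.sub_apply, Pi.add_apply, Pi.smul_apply, smul_eq_mul]
      ring
    have a2 : p2 l t0 t1 w - p2 l t0 t1 w' = p2 l t0 t1 (w - w') := by
      funext e
      simp only [p2, p1, p0, c0, c1, c2, Pi.sub_apply, Pi.add_apply, Pi.smul_apply, smul_eq_mul]
      ring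
    have a3 : p3 l t0 t1 s w - p3 l t0 t1 s w' = p3 l t0 t1 s (w - w') := by
      funext e
      simp only [p3, p2, p1, p0, c0, c1, c2, c3, Pi.sub_apply, Pi.add_apply, Pi.smul_apply,
        smul_eq_mul]
      ring
    refine (pi_norm_le_iff_of_nonneg (by positivity)).2 fun e => ?_
    have h0 := norm_nonneg (w - w')
    have k0 := Real.sqrt_nonneg l
    have k1 := Real.sqrt_nonneg (t0 - l)
    have k2 := Real.sqrt_nonneg (t1 - t0)
    have k3 := Real.sqrt_nonneg (s - t1)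
    rcases e with e | e | e
    · have h2 := (norm_le_pi_norm (p1 l t0 (w - w')) e).trans (norm_p1 l t0 (w - w'))
      rw [← a1] at h2
      exact h2.trans (mul_le_mul_of_nonneg_right (by linarith) h0)
    · have h2 := (norm_le_pi_norm (p2 l t0 t1 (w - w')) e).trans (norm_p2 l t0 t1 (w - w'))
      rw [← a2] at h2
      exact h2.trans (mul_le_mul_of_nonneg_right (by linarith) h0)
    · have h2 := (norm_le_pi_norm (p3 l t0 t1 s (w - w')) e).trans (norm_p3 l t0 t1 s (w - w'))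
      rw [← a3] at h2
      exact h2

/-- The logarithm of the density in the four blocks. -/
noncomputable def OM (x θ η l t0 t1 s : ℝ) (F : (κ → ℝ) → ℝ) (w : K4 κ → ℝ) : ℝ :=
  om x θ η t0 t1 s F (p1 l t0 w) (p2 l t0 t1 w) (p3 l t0 t1 s w)

lemma lip_OM (h : C11 F D B L) (hx : 0 < x) (θ η l t0 t1 s : ℝ) :
    Lip (OM x θ η l t0 t1 s F) := lip_p123 (lip_om h hx θ η t0 t1 s) l t0 t1 s

lemma eg_expOM (h : C11 F D B L) (hx : 0 < x) (θ η l t0 t1 s : ℝ) :
    EG fun w => Real.exp (OM x θ η l t0 t1 s F w) := by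
  simpa using (lip_OM h hx θ η l t0 t1 s).exp_eg 1

/-- The normalization, given the first block. -/
noncomputable def Zc (x θ η l t0 t1 s : ℝ) (F : (κ → ℝ) → ℝ) (y : κ → ℝ) : ℝ :=
  ∫ w : K3 κ → ℝ, Real.exp (OM x θ η l t0 t1 s F (Sum.elim y w)) ∂(gI (K3 κ))

lemma Zc_pos (h : C11 F D B L) (hx : 0 < x) (y : κ → ℝ) : 0 < Zc x θ η l t0 t1 s F y :=
  integral_exp_pos (eg_elim (eg_expOM h hx θ η l t0 t1 s) y).integrable

lemma eg_Zc (h : C11 F D B L) (hx : 0 < x) : EG (Zc x θ η l t0 t1 s F) :=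
  eg_int_sum (eg_expOM h hx θ η l t0 t1 s)

lemma lip_logZc (h : C11 F D B L) (hx : 0 < x) : Lip fun y => Real.log (Zc x θ η l t0 t1 s F y) :=
  lip_log_int (lip_OM h hx θ η l t0 t1 s)

/-- The first order term. -/
noncomputable def Sc (x θ η l t0 t1 s : ℝ) (F : (κ → ℝ) → ℝ) (D : κ → (κ → ℝ) → ℝ)
    (z0 z1 z2 : κ → ℝ) : ℝ :=
  x * sq x s F D z2 + (θ * x * (t1 - l) * (∑ e, dd x s F D e z2 * dd x t1 F D e z1) -
    (θ + η) * x * (t0 - l) * ∑ e, dd x s F D e z2 * dd x t0 F D e z0) / (s - l)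

/-- The integrand of the transport inequality. -/
noncomputable def LF (k c x θ η l t0 t1 s : ℝ) (F : (κ → ℝ) → ℝ) (D : κ → (κ → ℝ) → ℝ)
    (HF : κ → κ → (κ → ℝ) → ℝ) (z0 z1 z2 : κ → ℝ) : ℝ :=
  k * (uu x s F z2 + c * sq x s F D z2) - om x θ η t0 t1 s F z0 z1 z2 -
    c * Sc x θ η l t0 t1 s F D z0 z1 z2 -
    c ^ 2 / 2 * (sq x s F D z2 / (s - l) + hq x s F D HF z2)

lemma e3_om (h : C11 F D B L) (hx : 0 < x) (θ η t0 t1 s : ℝ) : E3 (om x θ η t0 t1 s F) :=
  (lip_om h hx θ η t0 t1 s).eg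

lemma e3_Sc (h : C11 F D B L) (hx : 0 < x) : E3 (Sc x θ η l t0 t1 s F D) := by
  classical
  have g2 : E3 fun (_ _ z2 : κ → ℝ) => sq x s F D z2 := E3.of2 (c11_uu h hx s).eg_G2
  have g1 : E3 fun (_ z1 z2 : κ → ℝ) => ∑ e, dd x s F D e z2 * dd x t1 F D e z1 :=
    E3.sum' _ fun e _ => (E3.of2 (eg_dd' h hx s e)).mul (E3.of1 (eg_dd' h hx t1 e))
  have g0 : E3 fun (z0 _ z2 : κ → ℝ) => ∑ e, dd x s F D e z2 * dd x t0 F D e z0 :=
    E3.sum' _ fun e _ => (E3.of2 (eg_dd' h hx s e)).mul (E3.of0 (eg_dd' h hx t0 e))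
  have h1 := (g2.const_mul x).add ((((g1.const_mul (θ * x * (t1 - l))).sub
    (g0.const_mul ((θ + η) * x * (t0 - l)))).const_mul (s - l)⁻¹))
  have e : Sc x θ η l t0 t1 s F D = fun z0 z1 z2 => x * sq x s F D z2 +
      (s - l)⁻¹ * (θ * x * (t1 - l) * (∑ e, dd x s F D e z2 * dd x t1 F D e z1) -
      (θ + η) * x * (t0 - l) * ∑ e, dd x s F D e z2 * dd x t0 F D e z0) := by
    funext z0 z1 z2
    unfold Sc
    rw [div_eq_inv_mul]
  rw [e]
  exact h1

lemma e3_LF (h : C2 F D HF B L B2) (hx : 0 < x) : E3 (LF k c x θ η l t0 t1 s F D HF) := by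
  have hC := h.c1
  have hU : C2 (uu x s F) (dd x s F D) (hh x s F D HF) B (L + 2 * x * (Fintype.card κ * B) ^ 2)
      (B2 + 2 * x * B ^ 2) := h.W hx _
  have g2 : E3 fun (_ _ z2 : κ → ℝ) => sq x s F D z2 := E3.of2 (c11_uu hC hx s).eg_G2
  have gu : E3 fun (_ _ z2 : κ → ℝ) => uu x s F z2 := E3.of2 (eg_uu hC hx s)
  have ghq : E3 fun (_ _ z2 : κ → ℝ) => hq x s F D HF z2 :=
    E3.of2 (EG.sum _ fun e _ => EG.sum _ fun i _ => (hU.egH e i).pow 2)
  have h1 := ((((gu.add (g2.const_mul c)).const_mul k).sub (e3_om hC hx θ η t0 t1 s)).sub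
    ((e3_Sc (θ := θ) (η := η) (l := l) (t0 := t0) (t1 := t1) (s := s) hC hx).const_mul c)).sub
    (((g2.const_mul (s - l)⁻¹).add ghq).const_mul (c ^ 2 / 2))
  have e : LF k c x θ η l t0 t1 s F D HF = fun z0 z1 z2 =>
      k * (uu x s F z2 + c * sq x s F D z2) - om x θ η t0 t1 s F z0 z1 z2 -
      c * Sc x θ η l t0 t1 s F D z0 z1 z2 -
      c ^ 2 / 2 * ((s - l)⁻¹ * sq x s F D z2 + hq x s F D HF z2) := by
    funext z0 z1 z2
    unfold LF
    rw [div_eq_inv_mul (sq x s F D z2)]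
  rw [e]
  exact h1

/-! ### the conditional transport inequality -/

lemma p1_po (y : κ → ℝ) (w : K3 κ → ℝ) [DecidableEq κ] : p1 l t0 (Sum.elim y w) =
    √l • y + po bs3 (cf3 (√(t0 - l)) 0 0) w := by
  rw [po3]
  funext e
  simp [p1, p0, c0, c1, b0]

lemma p2_po (y : κ → ℝ) (w : K3 κ → ℝ) [DecidableEq κ] : p2 l t0 t1 (Sum.elim y w) =
    √l • y + po bs3 (cf3 (√(t0 - l)) (√(t1 - t0)) 0) w := by
  rw [po3]
  funext e
  simp [p2, p1, p0, c0, c1, c2, b0, b1]
  ring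

lemma p3_po (y : κ → ℝ) (w : K3 κ → ℝ) [DecidableEq κ] : p3 l t0 t1 s (Sum.elim y w) =
    √l • y + po bs3 (cf3 (√(t0 - l)) (√(t1 - t0)) (√(s - t1))) w := by
  rw [po3]
  funext e
  simp [p3, p2, p1, p0, c0, c1, c2, c3, b0, b1, b2]
  ring

/-- Three steps of the value function of exponent `k`. -/
lemma int_three (h : C11 F D B L) (hk : 0 < k) (hlt : l ≤ t0) (h01 : t0 ≤ t1) (h1 : t1 ≤ s)
    (hs : s ≤ 1) (y : κ → ℝ) :
    ∫ w : K3 κ → ℝ, Real.exp (k * uu k s F (p3 l t0 t1 s (Sum.elim y w))) ∂(gI (K3 κ)) =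
      Real.exp (k * uu k l F (√l • y)) := by
  have hE : EG fun w : K4 κ → ℝ => Real.exp (k * uu k s F (p3 l t0 t1 s w)) :=
    (E4.of3 (κ := κ) ((c11_uu h hk s).eg_exp k)).eg_p l t0 t1 s
  rw [int_K3 (eg_elim hE y)]
  have e0 : ∀ y0 y1 y2 : κ → ℝ, p3 l t0 t1 s (Sum.elim y (Sum.elim y0 (Sum.elim y1 y2))) =
      √l • y + √(t0 - l) • y0 + √(t1 - t0) • y1 + √(s - t1) • y2 := fun _ _ _ => rfl
  simp_rw [e0]
  have e1 : ∀ y0 y1 : κ → ℝ, ∫ y2, Real.exp (k * uu k s F (√l • y + √(t0 - l) • y0 +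
      √(t1 - t0) • y1 + √(s - t1) • y2)) ∂(gI κ) =
      Real.exp (k * uu k t1 F (√l • y + √(t0 - l) • y0 + √(t1 - t0) • y1)) := fun y0 y1 =>
    uu_step h hk h1 hs _
  simp_rw [e1]
  have e2 : ∀ y0 : κ → ℝ, ∫ y1, Real.exp (k * uu k t1 F (√l • y + √(t0 - l) • y0 +
      √(t1 - t0) • y1)) ∂(gI κ) = Real.exp (k * uu k t0 F (√l • y + √(t0 - l) • y0)) := fun y0 =>
    uu_step h hk h01 (h1.trans hs) _
  simp_rw [e2]
  exact uu_step h hk hlt ((h01.trans h1).trans hs) _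

/-- **Conditional transport inequality.** -/
theorem cond_tr [DecidableEq κ] (h : C2 F D HF B L B2) (hc : Cv F) (hx : 0 < x) (hk : x ≤ k)
    (hlt : l ≤ t0) (h01 : t0 ≤ t1) (h1 : t1 ≤ s) (hls : l < s) (hs : s ≤ 1)
    (hc0 : 0 ≤ c) (y : κ → ℝ) :
    ∫ w : K3 κ → ℝ, Real.exp (OM x θ η l t0 t1 s F (Sum.elim y w)) *
      LF k c x θ η l t0 t1 s F D HF (p1 l t0 (Sum.elim y w)) (p2 l t0 t1 (Sum.elim y w))
        (p3 l t0 t1 s (Sum.elim y w)) ∂(gI (K3 κ)) +
      Zc x θ η l t0 t1 s F y * Real.log (Zc x θ η l t0 t1 s F y) ≤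
    Zc x θ η l t0 t1 s F y * (k * uu k l F (√l • y)) := by
  have hC := h.c1
  have hk0 : 0 < k := hx.trans_le hk
  set p : κ → ℝ := √l • y with hp
  have hU : C2 (fun z => uu x s F (p + z)) (fun e z => dd x s F D e (p + z))
      (fun e f z => hh x s F D HF e f (p + z)) B (L + 2 * x * (Fintype.card κ * B) ^ 2)
      (B2 + 2 * x * B ^ 2) := c2_trans (h.W hx _) p
  set cs : K3 κ → ℝ := cf3 (√(t0 - l)) (√(t1 - t0)) (√(s - t1)) with hcs
  set c1' : K3 κ → ℝ := cf3 (√(t0 - l)) (√(t1 - t0)) 0 with hc1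
  set c0' : K3 κ → ℝ := cf3 (√(t0 - l)) 0 0 with hc0'
  have e00 := Real.sq_sqrt (sub_nonneg.2 hlt)
  have e01 := Real.sq_sqrt (sub_nonneg.2 h01)
  have e12 := Real.sq_sqrt (sub_nonneg.2 h1)
  have f2 : FS bs3 (fun j => cs j ^ 2) (s - l) :=
    FS3 (a := t0 - l) (b := t1 - t0) (c := s - t1) (by ring) fun j => by
      rcases j with j | j | j <;> simp [hcs, cf3, e00, e01, e12]
  have f1 : FS bs3 (fun j => cs j * c1' j) (t1 - l) :=
    FS3 (a := t0 - l) (b := t1 - t0) (c := 0) (by ring) fun j => by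
      rcases j with j | j | j <;> simp [hcs, hc1, cf3, Real.mul_self_sqrt (sub_nonneg.2 hlt),
        Real.mul_self_sqrt (sub_nonneg.2 h01)]
  have f0 : FS bs3 (fun j => cs j * c0' j) (t0 - l) :=
    FS3 (a := t0 - l) (b := 0) (c := 0) (by ring) fun j => by
      rcases j with j | j | j <;> simp [hcs, hc0', cf3, Real.mul_self_sqrt (sub_nonneg.2 hlt)]
  have q3 : ∀ w : K3 κ → ℝ, p3 l t0 t1 s (Sum.elim y w) = p + po bs3 cs w := fun w => p3_po y w
  have q2' : ∀ w : K3 κ → ℝ, p2 l t0 t1 (Sum.elim y w) = p + po bs3 c1' w := fun w => p2_po y w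
  have q1' : ∀ w : K3 κ → ℝ, p1 l t0 (Sum.elim y w) = p + po bs3 c0' w := fun w => p1_po y w
  set Z := Zc x θ η l t0 t1 s F y with hZ
  have hZ0 : 0 < Z := Zc_pos hC hx y
  set ω : (K3 κ → ℝ) → ℝ := fun w => OM x θ η l t0 t1 s F (Sum.elim y w) - Real.log Z with hω
  set ω' : K3 κ → (K3 κ → ℝ) → ℝ := fun j w =>
    x * (cs j * dd x s F D (bs3 j) (p + po bs3 cs w)) +
      θ * (x * (c1' j * dd x t1 F D (bs3 j) (p + po bs3 c1' w) -
        c0' j * dd x t0 F D (bs3 j) (p + po bs3 c0' w))) -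
      η * (x * (c0' j * dd x t0 F D (bs3 j) (p + po bs3 c0' w))) with hω'
  have d : ∀ t u, HasFDerivAt (fun z => uu x t F (p + z))
      (lf fun e => dd x t F D e (p + u)) u := fun t u => by
    have a1 := C11.hasFDerivAt (c11_uu hC hx t) (p + u)
    have a2 : HasFDerivAt (fun z : κ → ℝ => p + z) (ContinuousLinearMap.id ℝ (κ → ℝ)) u :=
      (hasFDerivAt_id u).const_add p
    have a3 := a1.comp u a2
    simpa [Function.comp_def] using a3
  have dω : ∀ w, HasFDerivAt ω (lf fun j => ω' j w) w := by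
    intro w
    have g2 := fd_po (bs := bs3) (cf := cs) (d s) w
    have g1 := fd_po (bs := bs3) (cf := c1') (d t1) w
    have g0 := fd_po (bs := bs3) (cf := c0') (d t0) w
    have e : ω = fun w => x * uu x s F (p + po bs3 cs w) +
        θ * (x * (uu x t1 F (p + po bs3 c1' w) - uu x t0 F (p + po bs3 c0' w))) -
        η * (x * uu x t0 F (p + po bs3 c0' w)) - Real.log Z := by
      funext w
      simp only [hω, OM, om, xi, q3, q2', q1']
    rw [e]
    refine ((((g2.const_mul x).add (((g1.sub g0).const_mul x).const_mul θ)).sub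
      ((g0.const_mul x).const_mul η)).sub_const (Real.log Z)).congr_fderiv ?_
    ext v
    simp only [hω', add_apply, sub_apply, smul_apply, lf_apply, smul_eq_mul,
      Finset.mul_sum, ← Finset.sum_add_distrib, ← Finset.sum_sub_distrib]
    exact Finset.sum_congr rfl fun j _ => by ring
  have Es : ∀ (cf : K3 κ → ℝ) (f : (κ → ℝ) → ℝ), EG f →
      EG fun w : K3 κ → ℝ => f (p + po bs3 cf w) := fun cf f hf => by
    have a1 : EG fun z : κ → ℝ => f (p + (1 : ℝ) • z) := EG.add_smul hf p 1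
    simp only [one_smul] at a1
    exact eg_po a1
  have gω' : ∀ j, EG (ω' j) := fun j =>
    ((((Es cs _ (eg_dd' hC hx s (bs3 j))).const_mul (cs j)).const_mul x).add
      (((((Es c1' _ (eg_dd' hC hx t1 (bs3 j))).const_mul (c1' j)).sub
        ((Es c0' _ (eg_dd' hC hx t0 (bs3 j))).const_mul (c0' j))).const_mul x).const_mul θ)).sub
      ((((Es c0' _ (eg_dd' hC hx t0 (bs3 j))).const_mul (c0' j)).const_mul x).const_mul η)
  have gOM : EG fun w : K3 κ → ℝ => OM x θ η l t0 t1 s F (Sum.elim y w) :=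
    eg_elim (lip_OM hC hx θ η l t0 t1 s).eg y
  have gOMe : EG fun w : K3 κ → ℝ => Real.exp (OM x θ η l t0 t1 s F (Sum.elim y w)) :=
    eg_elim (eg_expOM hC hx θ η l t0 t1 s) y
  have gω : EG ω := gOM.sub (EG.const _)
  have expω : ∀ w, Real.exp (ω w) = Z⁻¹ * Real.exp (OM x θ η l t0 t1 s F (Sum.elim y w)) := by
    intro w
    simp only [hω]
    rw [Real.exp_sub, Real.exp_log hZ0, div_eq_inv_mul]
  have gωe : EG fun w => Real.exp (ω w) := by
    simp_rw [expω]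
    exact gOMe.const_mul _
  have hone : ∫ w, Real.exp (ω w) ∂(gI (K3 κ)) = 1 := by
    simp_rw [expω]
    rw [integral_const_mul]
    exact inv_mul_cancel₀ hZ0.ne'
  have key := tr_po (c := c) (k := k) hU dω gω' gω gωe hone f2 (sub_pos.2 hls) hc0 hk0.le
  -- the right side
  have hR : Real.log (∫ w : K3 κ → ℝ, Real.exp (k * uu x s F (p + po bs3 cs w)) ∂(gI (K3 κ))) ≤
      k * uu k l F p := by
    rw [← Real.log_exp (k * uu k l F p), hp, ← int_three hC hk0 hlt h01 h1 hs y]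
    refine Real.log_le_log (integral_exp_pos
      (Es cs _ ((c11_uu hC hx s).eg_exp k)).integrable) ?_
    have hE : EG fun w : K4 κ → ℝ => Real.exp (k * uu k s F (p3 l t0 t1 s w)) :=
      (E4.of3 (κ := κ) ((c11_uu hC hk0 s).eg_exp k)).eg_p l t0 t1 s
    refine integral_mono (Es cs _ ((c11_uu hC hx s).eg_exp k)).integrable
      (eg_elim hE y).integrable fun w => ?_
    simp only
    rw [q3 w]
    refine Real.exp_le_exp.2 (mul_le_mul_of_nonneg_left ?_ hk0.le)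
    have a1 := W_tangent (s := √(1 - s)) hC hc hx hk0 (p + po bs3 cs w)
    have a2 := Kc_nonneg (s := √(1 - s)) hC hx (p + po bs3 cs w)
    have a3 : 0 ≤ (k - x) * (Kc x (√(1 - s)) F (p + po bs3 cs w) / x ^ 2) :=
      mul_nonneg (by linarith) (by positivity)
    unfold uu
    linarith
  -- the left side
  have hS : ∀ w, ∑ j, ω' j w * tD (s - l) bs3 cs (fun e z => dd x s F D e (p + z)) j w =
      Sc x θ η l t0 t1 s F D (p + po bs3 c0' w) (p + po bs3 c1' w) (p + po bs3 cs w) := by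
    intro w
    have a2 := f2.sum fun e => x / (s - l) * dd x s F D e (p + po bs3 cs w) ^ 2
    have a1 := f1.sum fun e => θ * x / (s - l) * (dd x s F D e (p + po bs3 cs w) *
      dd x t1 F D e (p + po bs3 c1' w))
    have a0 := f0.sum fun e => (θ + η) * x / (s - l) * (dd x s F D e (p + po bs3 cs w) *
      dd x t0 F D e (p + po bs3 c0' w))
    have e1 : ∑ j, ω' j w * tD (s - l) bs3 cs (fun e z => dd x s F D e (p + z)) j w =
        ∑ j, cs j ^ 2 * (x / (s - l) * dd x s F D (bs3 j) (p + po bs3 cs w) ^ 2) +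
        (∑ j, cs j * c1' j * (θ * x / (s - l) * (dd x s F D (bs3 j) (p + po bs3 cs w) *
          dd x t1 F D (bs3 j) (p + po bs3 c1' w))) -
        ∑ j, cs j * c0' j * ((θ + η) * x / (s - l) * (dd x s F D (bs3 j) (p + po bs3 cs w) *
          dd x t0 F D (bs3 j) (p + po bs3 c0' w)))) := by
      rw [← Finset.sum_sub_distrib, ← Finset.sum_add_distrib]
      refine Finset.sum_congr rfl fun j _ => ?_
      simp only [hω', tD]
      ring
    rw [e1, a2, a1, a0, ← Finset.mul_sum, ← Finset.mul_sum, ← Finset.mul_sum]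
    have hsl : s - l ≠ 0 := (sub_pos.2 hls).ne'
    unfold Sc R1.sq G2
    change (s - l) * (x / (s - l) * ∑ e, dd x s F D e (p + po bs3 cs w) ^ 2) + _ =
      x * ∑ e, dd x s F D e (p + po bs3 cs w) ^ 2 + _
    field_simp
  have hL : ∫ w : K3 κ → ℝ, Real.exp (ω w) * (k * (uu x s F (p + po bs3 cs w) +
      c * ∑ e, dd x s F D e (p + po bs3 cs w) ^ 2) - ω w -
      c * ∑ j, ω' j w * tD (s - l) bs3 cs (fun e z => dd x s F D e (p + z)) j w -
      c ^ 2 / 2 * ((∑ e, dd x s F D e (p + po bs3 cs w) ^ 2) / (s - l) +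
        ∑ e, ∑ i, hh x s F D HF e i (p + po bs3 cs w) ^ 2)) ∂(gI (K3 κ)) =
      Z⁻¹ * (∫ w : K3 κ → ℝ, Real.exp (OM x θ η l t0 t1 s F (Sum.elim y w)) *
        LF k c x θ η l t0 t1 s F D HF (p1 l t0 (Sum.elim y w)) (p2 l t0 t1 (Sum.elim y w))
          (p3 l t0 t1 s (Sum.elim y w)) ∂(gI (K3 κ)) + Z * Real.log Z) := by
    have gLF : EG fun w : K3 κ → ℝ => Real.exp (OM x θ η l t0 t1 s F (Sum.elim y w)) *
        LF k c x θ η l t0 t1 s F D HF (p1 l t0 (Sum.elim y w)) (p2 l t0 t1 (Sum.elim y w))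
          (p3 l t0 t1 s (Sum.elim y w)) :=
      gOMe.mul (eg_elim (eg_p123 (e3_LF h hx) l t0 t1 s) y)
    have e5 : Z * Real.log Z = ∫ w : K3 κ → ℝ,
        Real.exp (OM x θ η l t0 t1 s F (Sum.elim y w)) * Real.log Z ∂(gI (K3 κ)) := by
      rw [integral_mul_const]; rfl
    rw [e5, ← integral_add gLF.integrable (gOMe.mul (EG.const _)).integrable,
      ← integral_const_mul]
    refine integral_congr_ae (Filter.Eventually.of_forall fun w => ?_)
    simp only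
    rw [hS w, expω w, ← q3 w, ← q2' w, ← q1' w]
    simp only [hω]
    have e6 : ∑ e, dd x s F D e (p3 l t0 t1 s (Sum.elim y w)) ^ 2 =
        sq x s F D (p3 l t0 t1 s (Sum.elim y w)) := rfl
    have e7 : ∑ e, ∑ i, hh x s F D HF e i (p3 l t0 t1 s (Sum.elim y w)) ^ 2 =
        hq x s F D HF (p3 l t0 t1 s (Sum.elim y w)) := rfl
    rw [e6, e7]
    unfold LF OM
    ring
  have key2 := (hL.symm.trans_le key).trans hR
  have h5 := mul_le_mul_of_nonneg_left key2 hZ0.le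
  rw [← mul_assoc, mul_inv_cancel₀ hZ0.ne', one_mul] at h5
  exact h5

end Vale.Agent.P146.U.R1.Gr
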