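import Vale.Agent.P146.U.H985.Gr2

/-!
Growth of the mean squared gradient, outer exponent: the transport inequality for the two-level
functional.
-/

open MeasureTheory ProbabilityTheory

namespace Vale.Agent.P146.U.R1.Gr

open Vale.Agent.P157.Lv Vale.Agent.P146.H425 Vale.Agent.P146.R1 Vale.Agent.P146.H785

set_option linter.unusedSectionVars false

variable {κ : Type} [Fintype κ] {F : (κ → ℝ) → ℝ} {D : κ → (κ → ℝ) → ℝ}
  {HF : κ → κ → (κ → ℝ) → ℝ} {B L B2 x θ η l t0 t1 s c k : ℝ}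
  {Ψ : (κ → ℝ) → (κ → ℝ) → (κ → ℝ) → ℝ}

lemma young {a : ℝ} (ha : 0 < a) (b : ℝ) : a * b ≤ a * Real.log a - a + Real.exp b := by
  have h1 := Real.add_one_le_exp (b - Real.log a)
  have h2 := mul_le_mul_of_nonneg_left h1 ha.le
  rw [Real.exp_sub, Real.exp_log ha, mul_div_cancel₀ _ ha.ne'] at h2
  linarith

lemma Eu_K4 (h : C11 F D B L) (hx : 0 < x) (hΨ : E3 Ψ) (hl : 0 ≤ l) (hlt : l ≤ t0) :
    ∫ y, (∫ w : K3 κ → ℝ, Real.exp (OM x θ η l t0 t1 s F (Sum.elim y w)) *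
      Ψ (p1 l t0 (Sum.elim y w)) (p2 l t0 t1 (Sum.elim y w)) (p3 l t0 t1 s (Sum.elim y w))
        ∂(gI (K3 κ))) ∂(gI κ) = Eu x θ η t0 t1 s F Ψ := by
  have hE : E3 fun z0 z1 z2 => dn x θ η t0 t1 s F z0 z1 z2 * Ψ z0 z1 z2 :=
    (e3_dn h hx θ η t0 t1 s).mul hΨ
  have h1 := int_K4_K3 (t1 := t1) (s := s) hE hl hlt
  have h2 := int_sum (eg_p123 hE l t0 t1 s)
  rw [h2] at h1
  exact h1

lemma int_one (h : C11 F D B L) (hx : 0 < x) (h01 : t0 ≤ t1) (h1 : t1 ≤ s) (hs : s ≤ 1)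
    (y : κ → ℝ) :
    ∫ w : K3 κ → ℝ, Real.exp (x * uu x s F (p3 l t0 t1 s (Sum.elim y w)) -
      x * uu x t0 F (p1 l t0 (Sum.elim y w))) ∂(gI (K3 κ)) = 1 := by
  have hl3 : Lip fun w : K3 κ → ℝ => x * uu x s F (b2 w) - x * uu x t0 F (b0 w) := by
    have l : ∀ t, Lip (uu x t F) := fun t => (c11_uu h hx t).lip.lip h.B0
    have l0 : Lip fun w : K3 κ → ℝ => uu x t0 F (b0 w) :=
      lip_b (l t0) zero_le_one fun w w' => by rw [one_mul]; exact norm_b0 (w - w')
    have l2 : Lip fun w : K3 κ → ℝ => uu x s F (b2 w) :=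
      lip_b (l s) zero_le_one fun w w' => by rw [one_mul]; exact norm_b2 (w - w')
    have e : (fun w : K3 κ → ℝ => x * uu x s F (b2 w) - x * uu x t0 F (b0 w)) =
        fun w => x * uu x s F (b2 w) + (-x) * uu x t0 F (b0 w) := by
      funext w; ring
    rw [e]
    exact (l2.const_mul x).add (l0.const_mul (-x))
  have hE : EG fun w : K4 κ → ℝ => Real.exp (x * uu x s F (p3 l t0 t1 s w) -
      x * uu x t0 F (p1 l t0 w)) := by
    have := (lip_p123 (Φ := fun z0 _ z2 => x * uu x s F z2 - x * uu x t0 F z0) hl3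
      l t0 t1 s).exp_eg 1
    simpa using this
  rw [int_K3 (eg_elim hE y)]
  have e0 : ∀ y0 y1 y2 : κ → ℝ, p3 l t0 t1 s (Sum.elim y (Sum.elim y0 (Sum.elim y1 y2))) =
      √l • y + √(t0 - l) • y0 + √(t1 - t0) • y1 + √(s - t1) • y2 := fun _ _ _ => rfl
  have e0' : ∀ y0 y1 y2 : κ → ℝ, p1 l t0 (Sum.elim y (Sum.elim y0 (Sum.elim y1 y2))) =
      √l • y + √(t0 - l) • y0 := fun _ _ _ => rfl
  simp_rw [e0, e0', Real.exp_sub, div_eq_mul_inv, integral_mul_const]
  have e1 : ∀ y0 y1 : κ → ℝ, ∫ y2, Real.exp (x * uu x s F (√l • y + √(t0 - l) • y0 +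
      √(t1 - t0) • y1 + √(s - t1) • y2)) ∂(gI κ) =
      Real.exp (x * uu x t1 F (√l • y + √(t0 - l) • y0 + √(t1 - t0) • y1)) := fun y0 y1 =>
    uu_step h hx h1 hs _
  simp_rw [e1]
  have e2 : ∀ y0 : κ → ℝ, ∫ y1, Real.exp (x * uu x t1 F (√l • y + √(t0 - l) • y0 +
      √(t1 - t0) • y1)) ∂(gI κ) = Real.exp (x * uu x t0 F (√l • y + √(t0 - l) • y0)) := fun y0 =>
    uu_step h hx h01 (h1.trans hs) _
  simp_rw [e2, mul_inv_cancel₀ (Real.exp_pos _).ne']
  simp

/-- The comparison function. -/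
noncomputable def Gc (x θ η t0 t1 : ℝ) (F : (κ → ℝ) → ℝ) (z0 z1 : κ → ℝ) : ℝ :=
  (1 - η) * (x * uu x t0 F z0) + θ * xi x t0 t1 F z0 z1

lemma e3_xi' (h : C11 F D B L) (hx : 0 < x) (t0 t1 : ℝ) :
    E3 fun (z0 z1 _ : κ → ℝ) => xi x t0 t1 F z0 z1 := by
  have h1 := ((E3.of1 (κ := κ) (eg_uu h hx t1)).sub (E3.of0 (eg_uu h hx t0))).const_mul x
  exact h1

lemma e3_Gc (h : C11 F D B L) (hx : 0 < x) (θ η t0 t1 : ℝ) :
    E3 fun (z0 z1 _ : κ → ℝ) => Gc x θ η t0 t1 F z0 z1 :=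
  (((E3.of0 (eg_uu h hx t0)).const_mul x).const_mul (1 - η)).add
    ((e3_xi' h hx t0 t1).const_mul θ)

/-- The entropy of the first block is at most that of the first two. -/
lemma Zc_log_le (h : C11 F D B L) (hx : 0 < x) (h01 : t0 ≤ t1) (h1 : t1 ≤ s) (hs : s ≤ 1)
    (y : κ → ℝ) : Zc x θ η l t0 t1 s F y * Real.log (Zc x θ η l t0 t1 s F y) ≤
      ∫ w : K3 κ → ℝ, Real.exp (OM x θ η l t0 t1 s F (Sum.elim y w)) *
        Gc x θ η t0 t1 F (p1 l t0 (Sum.elim y w)) (p2 l t0 t1 (Sum.elim y w)) ∂(gI (K3 κ)) := by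
  set Z := Zc x θ η l t0 t1 s F y with hZ
  have hZ0 : 0 < Z := Zc_pos h hx y
  have gE : EG fun w : K3 κ → ℝ => Real.exp (OM x θ η l t0 t1 s F (Sum.elim y w)) :=
    eg_elim (eg_expOM h hx θ η l t0 t1 s) y
  have gG : EG fun w : K3 κ → ℝ => Gc x θ η t0 t1 F (p1 l t0 (Sum.elim y w))
      (p2 l t0 t1 (Sum.elim y w)) :=
    eg_elim (eg_p123 (e3_Gc h hx θ η t0 t1) l t0 t1 s) y
  have gX : EG fun w : K3 κ → ℝ => Real.exp (x * uu x s F (p3 l t0 t1 s (Sum.elim y w)) -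
      x * uu x t0 F (p1 l t0 (Sum.elim y w))) := by
    have hl3 : Lip fun w : K3 κ → ℝ => x * uu x s F (b2 w) - x * uu x t0 F (b0 w) := by
      have l : ∀ t, Lip (uu x t F) := fun t => (c11_uu h hx t).lip.lip h.B0
      have l0 : Lip fun w : K3 κ → ℝ => uu x t0 F (b0 w) :=
        lip_b (l t0) zero_le_one fun w w' => by rw [one_mul]; exact norm_b0 (w - w')
      have l2 : Lip fun w : K3 κ → ℝ => uu x s F (b2 w) :=
        lip_b (l s) zero_le_one fun w w' => by rw [one_mul]; exact norm_b2 (w - w')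
      have e : (fun w : K3 κ → ℝ => x * uu x s F (b2 w) - x * uu x t0 F (b0 w)) =
          fun w => x * uu x s F (b2 w) + (-x) * uu x t0 F (b0 w) := by
        funext w; ring
      rw [e]
      exact (l2.const_mul x).add (l0.const_mul (-x))
    have := (lip_p123 (Φ := fun z0 _ z2 => x * uu x s F z2 - x * uu x t0 F z0) hl3
      l t0 t1 s).exp_eg 1
    simp only [one_mul] at this
    exact eg_elim this y
  have h2 : ∫ w : K3 κ → ℝ, (Real.exp (OM x θ η l t0 t1 s F (Sum.elim y w)) * Real.log Z -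
      Real.exp (OM x θ η l t0 t1 s F (Sum.elim y w)) *
        Gc x θ η t0 t1 F (p1 l t0 (Sum.elim y w)) (p2 l t0 t1 (Sum.elim y w))) ∂(gI (K3 κ)) ≤
      ∫ w : K3 κ → ℝ, (Z * Real.exp (x * uu x s F (p3 l t0 t1 s (Sum.elim y w)) -
        x * uu x t0 F (p1 l t0 (Sum.elim y w))) -
        Real.exp (OM x θ η l t0 t1 s F (Sum.elim y w))) ∂(gI (K3 κ)) := by
    refine integral_mono ((gE.mul (EG.const _)).sub (gE.mul gG)).integrable
      ((gX.const_mul Z).sub gE).integrable fun w => ?_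
    simp only
    set a := OM x θ η l t0 t1 s F (Sum.elim y w) with ha
    set g := Gc x θ η t0 t1 F (p1 l t0 (Sum.elim y w)) (p2 l t0 t1 (Sum.elim y w)) with hg
    have e1 : x * uu x s F (p3 l t0 t1 s (Sum.elim y w)) -
        x * uu x t0 F (p1 l t0 (Sum.elim y w)) = a - g := by
      rw [ha, hg]
      unfold OM om Gc
      ring
    rw [e1]
    have h3 := Real.add_one_le_exp (Real.log Z - g)
    have h4 := mul_le_mul_of_nonneg_left h3 (Real.exp_pos a).le
    have h5 : Real.exp a * Real.exp (Real.log Z - g) = Z * Real.exp (a - g) := by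
      rw [Real.exp_sub, Real.exp_log hZ0, Real.exp_sub]
      ring
    rw [h5] at h4
    linarith
  rw [integral_sub (gE.mul (EG.const _)).integrable (gE.mul gG).integrable,
    integral_sub (gX.const_mul Z).integrable gE.integrable, integral_mul_const,
    integral_const_mul, int_one h hx h01 h1 hs y] at h2
  have h6 : ∫ w : K3 κ → ℝ, Real.exp (OM x θ η l t0 t1 s F (Sum.elim y w)) ∂(gI (K3 κ)) = Z := rfl
  rw [h6] at h2
  linarith

/-- The transport inequality, integrated. -/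
theorem tr_int [DecidableEq κ] (h : C2 F D HF B L B2) (hc : Cv F) (hx : 0 < x) (hk : x ≤ k)
    (hη : 0 ≤ η) (hη1 : η < 1) (hl : 0 ≤ l) (hlt : l ≤ t0) (h01 : t0 ≤ t1) (h1 : t1 ≤ s)
    (hls : l < s) (hs : s ≤ 1) (hc0 : 0 ≤ c) :
    Eu x θ η t0 t1 s F (LF k c x θ η l t0 t1 s F D HF) ≤
      (k / ((1 - η) * x) - 1) * Eu x θ η t0 t1 s F (fun z0 z1 _ => Gc x θ η t0 t1 F z0 z1) +
      (k * PP ((1 - η) * x) k (√l) (√(1 - l)) F - k / ((1 - η) * x) *
        Real.log (Eu x θ η t0 t1 s F (fun _ _ _ => 1))) *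
        Eu x θ η t0 t1 s F (fun _ _ _ => 1) := by
  have hC := h.c1
  have hk0 : 0 < k := hx.trans_le hk
  set r := (1 - η) * x with hr
  have hr0 : 0 < r := mul_pos (by linarith) hx
  have hrx : r ≤ x := by
    rw [hr]
    nlinarith
  set Z := Eu x θ η t0 t1 s F (fun _ _ _ => 1) with hZ
  have hZ0 : 0 < Z := Eu_one_pos hC hx
  set zc : (κ → ℝ) → ℝ := Zc x θ η l t0 t1 s F with hzc
  have gz : EG zc := eg_Zc hC hx
  have glz : EG fun y => Real.log (zc y) := (lip_logZc hC hx).eg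
  have gu : EG fun y : κ → ℝ => uu k l F (√l • y) := EG.smul' (eg_uu hC hk0 l) _
  have gI1 : EG fun y : κ → ℝ => ∫ w : K3 κ → ℝ, Real.exp (OM x θ η l t0 t1 s F (Sum.elim y w)) *
      LF k c x θ η l t0 t1 s F D HF (p1 l t0 (Sum.elim y w)) (p2 l t0 t1 (Sum.elim y w))
        (p3 l t0 t1 s (Sum.elim y w)) ∂(gI (K3 κ)) :=
    eg_int_sum ((eg_expOM hC hx θ η l t0 t1 s).mul (eg_p123 (e3_LF h hx) l t0 t1 s))
  have gI2 : EG fun y : κ → ℝ => ∫ w : K3 κ → ℝ, Real.exp (OM x θ η l t0 t1 s F (Sum.elim y w)) *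
      Gc x θ η t0 t1 F (p1 l t0 (Sum.elim y w)) (p2 l t0 t1 (Sum.elim y w)) ∂(gI (K3 κ)) :=
    eg_int_sum ((eg_expOM hC hx θ η l t0 t1 s).mul
      (eg_p123 (e3_Gc hC hx θ η t0 t1) l t0 t1 s))
  -- (S4)
  have s4 : Eu x θ η t0 t1 s F (LF k c x θ η l t0 t1 s F D HF) +
      ∫ y, zc y * Real.log (zc y) ∂(gI κ) ≤ ∫ y, zc y * (k * uu k l F (√l • y)) ∂(gI κ) := by
    rw [← Eu_K4 hC hx (e3_LF h hx) hl hlt, ← integral_add gI1.integrable (gz.mul glz).integrable]
    exact integral_mono (gI1.add (gz.mul glz)).integrable (gz.mul (gu.const_mul k)).integrable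
      fun y => cond_tr h hc hx hk hlt h01 h1 hls hs hc0 y
  -- (I4)
  have i4 : ∫ y, zc y * Real.log (zc y) ∂(gI κ) ≤
      Eu x θ η t0 t1 s F (fun z0 z1 _ => Gc x θ η t0 t1 F z0 z1) := by
    rw [← Eu_K4 hC hx (e3_Gc hC hx θ η t0 t1) hl hlt]
    exact integral_mono (gz.mul glz).integrable gI2.integrable
      fun y => Zc_log_le hC hx h01 h1 hs y
  -- (I3)
  set P := PP r k (√l) (√(1 - l)) F with hP
  have hzZ : ∫ y, zc y ∂(gI κ) = Z := by
    have := Eu_K4 (θ := θ) (η := η) (t1 := t1) (s := s) hC hx (E3.const 1) hl hlt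
    simp only [mul_one] at this
    exact this
  have hexpP : ∫ y, Real.exp (r * uu k l F (√l • y)) ∂(gI κ) = Real.exp (r * P) := by
    have := (hC.W' hk0 (√(1 - l))).lip.exp_W (s := √l) hC.B0 hr0 0
    simp only [zero_add] at this
    exact this.symm
  have i3 : ∫ y, zc y * (r * uu k l F (√l • y)) ∂(gI κ) ≤
      ∫ y, zc y * Real.log (zc y) ∂(gI κ) + (r * P - Real.log Z) * Z := by
    have gexp : EG fun y : κ → ℝ => Real.exp (r * uu k l F (√l • y)) :=
      EG.smul' ((c11_uu hC hk0 l).eg_exp r) _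
    have a1 : ∫ y, (zc y * (r * uu k l F (√l • y)) - (r * P - Real.log Z) * zc y) ∂(gI κ) ≤
        ∫ y, ((zc y * Real.log (zc y) - zc y) + Z * Real.exp (-(r * P)) *
          Real.exp (r * uu k l F (√l • y))) ∂(gI κ) := by
      refine integral_mono ((gz.mul (gu.const_mul r)).sub (gz.const_mul _)).integrable
        (((gz.mul glz).sub gz).add (gexp.const_mul _)).integrable fun y => ?_
      simp only
      have b1 := young (Zc_pos (θ := θ) (η := η) (l := l) (t0 := t0) (t1 := t1) (s := s) hC hx y)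
        (r * uu k l F (√l • y) - r * P + Real.log Z)
      have b2 : Real.exp (r * uu k l F (√l • y) - r * P + Real.log Z) =
          Z * Real.exp (-(r * P)) * Real.exp (r * uu k l F (√l • y)) := by
        rw [Real.exp_add, Real.exp_log hZ0, sub_eq_add_neg, Real.exp_add]
        ring
      rw [b2] at b1
      simp only [hzc]
      linarith
    have e3 : Z * Real.exp (-(r * P)) * Real.exp (r * P) = Z := by
      rw [mul_assoc, ← Real.exp_add, neg_add_cancel, Real.exp_zero, mul_one]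
    rw [integral_sub (gz.mul (gu.const_mul r)).integrable (gz.const_mul _).integrable,
      integral_add ((gz.mul glz).sub gz).integrable (gexp.const_mul _).integrable,
      integral_sub (gz.mul glz).integrable gz.integrable, integral_const_mul, integral_const_mul,
      hzZ, hexpP, e3] at a1
    linarith
  have e1 : ∫ y, zc y * (k * uu k l F (√l • y)) ∂(gI κ) =
      k / r * ∫ y, zc y * (r * uu k l F (√l • y)) ∂(gI κ) := by
    rw [← integral_const_mul]
    refine integral_congr_ae (Filter.Eventually.of_forall fun y => ?_)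
    simp only
    field_simp
  rw [e1] at s4
  have hkr : 0 ≤ k / r - 1 := by
    rw [sub_nonneg, le_div_iff₀ hr0]
    linarith
  have i3' := mul_le_mul_of_nonneg_left i3 (by positivity : 0 ≤ k / r)
  have i4' := mul_le_mul_of_nonneg_left i4 hkr
  have e2 : k / r * (∫ y, zc y * Real.log (zc y) ∂(gI κ) + (r * P - Real.log Z) * Z) =
      k / r * ∫ y, zc y * Real.log (zc y) ∂(gI κ) + (k * P - k / r * Real.log Z) * Z := by
    field_simp
  rw [e2] at i3'
  linarith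

end Vale.Agent.P146.U.R1.Gr
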