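import Vale.Agent.P146.U.H985.Gr3

/-!
Growth of the mean squared gradient, outer exponent: the inequality `gr_raw` and its optimised form
`growth`.
-/

open MeasureTheory ProbabilityTheory

namespace Vale.Agent.P146.U.R1.Gr

open Vale.Agent.P157.Lv Vale.Agent.P146.H425 Vale.Agent.P146.R1 Vale.Agent.P146.H785

set_option linter.unusedSectionVars false

variable {κ : Type} [Fintype κ] {F : (κ → ℝ) → ℝ} {D : κ → (κ → ℝ) → ℝ}
  {HF : κ → κ → (κ → ℝ) → ℝ} {B L B2 x θ η l t0 t1 s c k : ℝ}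
  {Ψ : (κ → ℝ) → (κ → ℝ) → (κ → ℝ) → ℝ}

/-! ### the value function increases in mean -/

lemma Eu_last_nonneg (h : C11 F D B L) (hx : 0 < x) (h1 : t1 ≤ s) (hs : s ≤ 1) :
    0 ≤ Eu x θ η t0 t1 s F (fun _ z1 z2 => x * uu x s F z2 - x * uu x t1 F z1) := by
  have g : E3 fun (_ z1 z2 : κ → ℝ) => x * uu x s F z2 - x * uu x t1 F z1 :=
    ((E3.of2 (eg_uu h hx s)).const_mul x).sub ((E3.of1 (eg_uu h hx t1)).const_mul x)
  rw [Eu_iter h hx g]
  refine integral_nonneg fun y0 => integral_nonneg fun y1 => ?_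
  set z0 : κ → ℝ := √t0 • y0 with hz0
  set z1 : κ → ℝ := z0 + √(t1 - t0) • y1 with hz1
  set K : ℝ := Real.exp (θ * xi x t0 t1 F z0 z1 - η * (x * uu x t0 F z0)) with hK
  have hK0 : 0 < K := Real.exp_pos _
  have gu : EG fun y2 : κ → ℝ => uu x s F (z1 + √(s - t1) • y2) :=
    EG.add_smul (eg_uu h hx s) z1 _
  have ge : EG fun y2 : κ → ℝ => Real.exp (x * uu x s F (z1 + √(s - t1) • y2)) :=
    EG.add_smul ((c11_uu h hx s).eg_exp x) z1 _
  have e1 : ∀ y2 : κ → ℝ, dn x θ η t0 t1 s F z0 z1 (z1 + √(s - t1) • y2) *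
      (x * uu x s F (z1 + √(s - t1) • y2) - x * uu x t1 F z1) =
      K * (Real.exp (x * uu x s F (z1 + √(s - t1) • y2)) *
        (x * uu x s F (z1 + √(s - t1) • y2) - x * uu x t1 F z1)) := by
    intro y2
    rw [hK, ← mul_assoc, ← Real.exp_add]
    unfold dn
    congr 2
    ring
  simp only
  simp_rw [e1]
  rw [integral_const_mul]
  refine mul_nonneg hK0.le ?_
  have h2 : ∫ y2 : κ → ℝ, (Real.exp (x * uu x s F (z1 + √(s - t1) • y2)) -
      Real.exp (x * uu x t1 F z1)) ∂(gI κ) = 0 := by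
    rw [integral_sub ge.integrable (integrable_const _), uu_step h hx h1 hs]
    simp
  rw [← h2]
  refine integral_mono (ge.sub (EG.const _)).integrable
    (ge.mul ((gu.const_mul x).sub (EG.const _))).integrable fun y2 => ?_
  simp only
  set a := x * uu x s F (z1 + √(s - t1) • y2) with ha
  set b := x * uu x t1 F z1 with hb
  have h3 := Real.add_one_le_exp (b - a)
  have h4 := mul_le_mul_of_nonneg_left h3 (Real.exp_pos a).le
  rw [← Real.exp_add, add_sub_cancel] at h4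
  linarith

lemma Eu_xi_nonneg (h : C11 F D B L) (hx : 0 < x) (hθ : 0 ≤ θ) (h01 : t0 ≤ t1) (h1 : t1 ≤ s)
    (hs : s ≤ 1) : 0 ≤ Eu x θ η t0 t1 s F (fun z0 z1 _ => xi x t0 t1 F z0 z1) := by
  rw [Eu_fst h hx (e3_xi' h hx t0 t1) h1 hs]
  refine integral_nonneg fun y0 => ?_
  set z0 : κ → ℝ := √t0 • y0 with hz0
  set K : ℝ := Real.exp ((1 - η) * (x * uu x t0 F z0)) with hK
  have hK0 : 0 < K := Real.exp_pos _
  have gu : EG fun y1 : κ → ℝ => uu x t1 F (z0 + √(t1 - t0) • y1) :=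
    EG.add_smul (eg_uu h hx t1) z0 _
  have gxi : EG fun y1 : κ → ℝ => xi x t0 t1 F z0 (z0 + √(t1 - t0) • y1) :=
    (gu.sub (EG.const _)).const_mul x
  have ge : EG fun y1 : κ → ℝ => Real.exp (x * uu x t1 F (z0 + √(t1 - t0) • y1)) :=
    EG.add_smul ((c11_uu h hx t1).eg_exp x) z0 _
  have ge2 : EG fun y1 : κ → ℝ => Real.exp ((1 + θ) * xi x t0 t1 F z0 (z0 + √(t1 - t0) • y1)) := by
    have a1 : EG fun y1 : κ → ℝ =>
        Real.exp (((1 + θ) * x) * uu x t1 F (z0 + √(t1 - t0) • y1)) :=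
      EG.add_smul ((c11_uu h hx t1).eg_exp ((1 + θ) * x)) z0 _
    have a2 := a1.const_mul (Real.exp (-((1 + θ) * (x * uu x t0 F z0))))
    have e : (fun y1 : κ → ℝ => Real.exp ((1 + θ) * xi x t0 t1 F z0 (z0 + √(t1 - t0) • y1))) =
        fun y1 => Real.exp (-((1 + θ) * (x * uu x t0 F z0))) *
          Real.exp (((1 + θ) * x) * uu x t1 F (z0 + √(t1 - t0) • y1)) := by
      funext y1
      rw [← Real.exp_add]
      congr 1
      unfold xi
      ring
    rw [e]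
    exact a2
  have e1 : ∀ y1 : κ → ℝ, Real.exp (x * uu x t1 F (z0 + √(t1 - t0) • y1) +
        θ * xi x t0 t1 F z0 (z0 + √(t1 - t0) • y1) - η * (x * uu x t0 F z0)) *
      xi x t0 t1 F z0 (z0 + √(t1 - t0) • y1) =
      K * (Real.exp ((1 + θ) * xi x t0 t1 F z0 (z0 + √(t1 - t0) • y1)) *
        xi x t0 t1 F z0 (z0 + √(t1 - t0) • y1)) := by
    intro y1
    rw [hK, ← mul_assoc (Real.exp ((1 - η) * (x * uu x t0 F z0))), ← Real.exp_add]
    congr 2
    unfold xi
    ring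
  simp only
  simp_rw [e1]
  rw [integral_const_mul]
  refine mul_nonneg hK0.le ?_
  have h2 : ∫ y1 : κ → ℝ, (Real.exp (-(x * uu x t0 F z0)) *
      Real.exp (x * uu x t1 F (z0 + √(t1 - t0) • y1)) - 1) ∂(gI κ) = 0 := by
    rw [integral_sub (ge.const_mul _).integrable (integrable_const _), integral_const_mul,
      uu_step h hx h01 (h1.trans hs), ← Real.exp_add]
    simp
  rw [← h2]
  refine integral_mono ((ge.const_mul _).sub (EG.const _)).integrable
    (ge2.mul gxi).integrable fun y1 => ?_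
  simp only
  have e2 : Real.exp (-(x * uu x t0 F z0)) * Real.exp (x * uu x t1 F (z0 + √(t1 - t0) • y1)) =
      Real.exp (xi x t0 t1 F z0 (z0 + √(t1 - t0) • y1)) := by
    rw [← Real.exp_add]
    congr 1
    unfold xi
    ring
  rw [e2]
  set v := xi x t0 t1 F z0 (z0 + √(t1 - t0) • y1) with hv
  -- `e^v - 1 ≤ e^((1+θ)v) v`
  have h3 := Real.add_one_le_exp (-v)
  have h4 := mul_le_mul_of_nonneg_left h3 (Real.exp_pos v).le
  rw [← Real.exp_add, add_neg_cancel, Real.exp_zero] at h4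
  have h5 : Real.exp v * v ≤ Real.exp ((1 + θ) * v) * v := by
    rcases le_total 0 v with h0 | h0
    · refine mul_le_mul_of_nonneg_right (Real.exp_le_exp.2 ?_) h0
      nlinarith [mul_nonneg hθ h0]
    · refine mul_le_mul_of_nonpos_right (Real.exp_le_exp.2 ?_) h0
      nlinarith [mul_nonneg hθ (neg_nonneg.2 h0)]
  linarith

lemma Et_uu_mono (h : C11 F D B L) (hx : 0 < x) (hθ : 0 ≤ θ) (h01 : t0 ≤ t1) (h1 : t1 ≤ s)
    (hs : s ≤ 1) : Et x θ η t0 t1 s F (fun z0 _ _ => uu x t0 F z0) ≤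
      Et x θ η t0 t1 s F (fun _ _ z2 => uu x s F z2) := by
  have a1 := Eu_last_nonneg (θ := θ) (η := η) (t0 := t0) h hx h1 hs
  have a2 := Eu_xi_nonneg (η := η) h hx hθ h01 h1 hs
  have g2 : E3 fun (_ _ z2 : κ → ℝ) => uu x s F z2 := E3.of2 (eg_uu h hx s)
  have g0 : E3 fun (z0 _ _ : κ → ℝ) => uu x t0 F z0 := E3.of0 (eg_uu h hx t0)
  have g : E3 fun (_ z1 z2 : κ → ℝ) => x * uu x s F z2 - x * uu x t1 F z1 :=
    ((E3.of2 (eg_uu h hx s)).const_mul x).sub ((E3.of1 (eg_uu h hx t1)).const_mul x)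
  have h3 : 0 ≤ Eu x θ η t0 t1 s F (fun z0 _ z2 => x * (uu x s F z2 + -1 * uu x t0 F z0)) := by
    have e : (fun (z0 z1 z2 : κ → ℝ) => x * (uu x s F z2 + -1 * uu x t0 F z0)) =
        fun z0 z1 z2 => (x * uu x s F z2 - x * uu x t1 F z1) + xi x t0 t1 F z0 z1 := by
      funext z0 z1 z2
      unfold xi
      ring
    rw [e, Eu_add h hx g (e3_xi' h hx t0 t1)]
    linarith
  rw [Eu_const_mul, Eu_add h hx g2 (g0.const_mul (-1)), Eu_const_mul] at h3
  have h4 := nonneg_of_mul_nonneg_right h3 hx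
  unfold Et
  exact div_le_div_of_nonneg_right (by linarith) (Eu_one_pos h hx).le

/-- The normalization of the outer law is the two-level functional. -/
lemma log_Zo (h : C11 F D B L) (hx : 0 < x) (hη1 : η < 1) :
    Real.log (Zo x η t0 F) = (1 - η) * x * PP ((1 - η) * x) x (√t0) (√(1 - t0)) F := by
  have hr0 : 0 < (1 - η) * x := mul_pos (by linarith) hx
  have h1 := (h.W' hx (√(1 - t0))).lip.exp_W (s := √t0) h.B0 hr0 0
  have h2 : Zo x η t0 F = Real.exp ((1 - η) * x * PP ((1 - η) * x) x (√t0) (√(1 - t0)) F) := by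
    unfold PP
    rw [h1]
    unfold Zo uu
    refine integral_congr_ae (Filter.Eventually.of_forall fun y => ?_)
    simp only [zero_add]
    congr 1
    ring
  rw [h2, Real.log_exp]

/-- **The growth inequality, raw form.** `k` is the exponent on `[l, 1]`, the two functionals are
`P(y; k on [l,1])` and `P(y; x on [t0,1])` with the outer exponent `y = (1 - η) x`. -/
theorem gr_raw [DecidableEq κ] (h : C2 F D HF B L B2) (hc : Cv F) (hx : 0 < x) (hk : x ≤ k)
    (hη : 0 ≤ η) (hη1 : η < 1) (hθ : 0 ≤ θ) (hl : 0 ≤ l) (hlt : l ≤ t0) (h01 : t0 ≤ t1)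
    (h1 : t1 ≤ s) (hls : l < s) (hs : s ≤ 1) (hc0 : 0 ≤ c) :
    k * c * Qt x θ η t0 t1 s F D - c * Et x θ η t0 t1 s F (Sc x θ η l t0 t1 s F D) -
      c ^ 2 / 2 * (Qt x θ η t0 t1 s F D / (s - l) +
        Et x θ η t0 t1 s F (fun _ _ z2 => hq x s F D HF z2)) ≤
      k * (PP ((1 - η) * x) k (√l) (√(1 - l)) F - PP ((1 - η) * x) x (√t0) (√(1 - t0)) F) +
        k / ((1 - η) * x) * (θ * Et x θ η t0 t1 s F (fun z0 z1 _ => xi x t0 t1 F z0 z1) -
          Lth x θ η t0 t1 F) := by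
  have hC := h.c1
  have hk0 : 0 < k := hx.trans_le hk
  set r := (1 - η) * x with hr
  have hr0 : 0 < r := mul_pos (by linarith) hx
  set Z := Eu x θ η t0 t1 s F (fun _ _ _ => 1) with hZ
  have hZ0 : 0 < Z := Eu_one_pos hC hx
  have key := tr_int (θ := θ) h hc hx hk hη hη1 hl hlt h01 h1 hls hs hc0
  rw [← hr, ← hZ] at key
  -- divide by `Z`
  have key2 : Et x θ η t0 t1 s F (LF k c x θ η l t0 t1 s F D HF) ≤
      (k / r - 1) * Et x θ η t0 t1 s F (fun z0 z1 _ => Gc x θ η t0 t1 F z0 z1) +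
      (k * PP r k (√l) (√(1 - l)) F - k / r * Real.log Z) := by
    unfold Et
    rw [← hZ, div_le_iff₀ hZ0, add_mul, mul_assoc, div_mul_cancel₀ _ hZ0.ne']
    exact key
  have hlogZ : Real.log Z = r * PP r x (√t0) (√(1 - t0)) F + Lth x θ η t0 t1 F := by
    rw [hZ, Eu_one hC hx h01 h1 hs, Real.log_mul (Zo_pos hC hx (h01.trans (h1.trans hs))).ne'
      (Real.exp_pos _).ne', Real.log_exp, log_Zo hC hx hη1]
  have hU : C2 (uu x s F) (dd x s F D) (hh x s F D HF) B (L + 2 * x * (Fintype.card κ * B) ^ 2)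
      (B2 + 2 * x * B ^ 2) := h.W hx _
  have gsq : E3 fun (_ _ z2 : κ → ℝ) => sq x s F D z2 := E3.of2 (c11_uu hC hx s).eg_G2
  have gu : E3 fun (_ _ z2 : κ → ℝ) => uu x s F z2 := E3.of2 (eg_uu hC hx s)
  have gu0 : E3 fun (z0 _ _ : κ → ℝ) => uu x t0 F z0 := E3.of0 (eg_uu hC hx t0)
  have gxi := e3_xi' hC hx t0 t1
  have ghq : E3 fun (_ _ z2 : κ → ℝ) => hq x s F D HF z2 :=
    E3.of2 (EG.sum _ fun e _ => EG.sum _ fun i _ => (hU.egH e i).pow 2)
  have gSc : E3 (Sc x θ η l t0 t1 s F D) := e3_Sc hC hx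
  have eG : Et x θ η t0 t1 s F (fun z0 z1 _ => Gc x θ η t0 t1 F z0 z1) =
      (1 - η) * x * Et x θ η t0 t1 s F (fun z0 _ _ => uu x t0 F z0) +
        θ * Et x θ η t0 t1 s F (fun z0 z1 _ => xi x t0 t1 F z0 z1) := by
    have e : (fun (z0 z1 _ : κ → ℝ) => Gc x θ η t0 t1 F z0 z1) =
        fun z0 z1 _ => (1 - η) * x * uu x t0 F z0 + θ * xi x t0 t1 F z0 z1 := by
      funext z0 z1 z2
      unfold Gc
      ring
    rw [e, Et_add hC hx (gu0.const_mul _) (gxi.const_mul _), Et_const_mul, Et_const_mul]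
  have eL : Et x θ η t0 t1 s F (LF k c x θ η l t0 t1 s F D HF) =
      (k - x) * Et x θ η t0 t1 s F (fun _ _ z2 => uu x s F z2) +
      k * c * Qt x θ η t0 t1 s F D -
      θ * Et x θ η t0 t1 s F (fun z0 z1 _ => xi x t0 t1 F z0 z1) +
      η * x * Et x θ η t0 t1 s F (fun z0 _ _ => uu x t0 F z0) -
      c * Et x θ η t0 t1 s F (Sc x θ η l t0 t1 s F D) -
      c ^ 2 / 2 * (Qt x θ η t0 t1 s F D / (s - l) +
        Et x θ η t0 t1 s F (fun _ _ z2 => hq x s F D HF z2)) := by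
    have e : LF k c x θ η l t0 t1 s F D HF = fun z0 z1 z2 =>
        (((((k - x) * uu x s F z2 + (k * c - c ^ 2 / 2 * (s - l)⁻¹) * sq x s F D z2) -
          θ * xi x t0 t1 F z0 z1) + η * x * uu x t0 F z0) -
          c * Sc x θ η l t0 t1 s F D z0 z1 z2) - c ^ 2 / 2 * hq x s F D HF z2 := by
      funext z0 z1 z2
      unfold LF om
      rw [div_eq_inv_mul]
      ring
    rw [e, Et_sub hC hx (((((gu.const_mul _).add (gsq.const_mul _)).sub (gxi.const_mul _)).add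
        (gu0.const_mul _)).sub (gSc.const_mul _)) (ghq.const_mul _),
      Et_sub hC hx ((((gu.const_mul _).add (gsq.const_mul _)).sub (gxi.const_mul _)).add
        (gu0.const_mul _)) (gSc.const_mul _),
      Et_add hC hx (((gu.const_mul _).add (gsq.const_mul _)).sub (gxi.const_mul _))
        (gu0.const_mul _),
      Et_sub hC hx ((gu.const_mul _).add (gsq.const_mul _)) (gxi.const_mul _),
      Et_add hC hx (gu.const_mul _) (gsq.const_mul _), Et_const_mul, Et_const_mul, Et_const_mul,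
      Et_const_mul, Et_const_mul, Et_const_mul]
    change _ + (k * c - c ^ 2 / 2 * (s - l)⁻¹) * Qt x θ η t0 t1 s F D - _ + _ - _ - _ = _
    rw [div_eq_mul_inv (Qt x θ η t0 t1 s F D)]
    ring
  rw [eG, eL, hlogZ] at key2
  have hmono := mul_le_mul_of_nonneg_left (Et_uu_mono (η := η) hC hx hθ h01 h1 hs)
    (by linarith : 0 ≤ k - x)
  have e3 : (k / r - 1) * ((1 - η) * x * Et x θ η t0 t1 s F (fun z0 _ _ => uu x t0 F z0) +
      θ * Et x θ η t0 t1 s F (fun z0 z1 _ => xi x t0 t1 F z0 z1)) =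
      (k - (1 - η) * x) * Et x θ η t0 t1 s F (fun z0 _ _ => uu x t0 F z0) +
      (k / r * (θ * Et x θ η t0 t1 s F (fun z0 z1 _ => xi x t0 t1 F z0 z1)) -
      θ * Et x θ η t0 t1 s F (fun z0 z1 _ => xi x t0 t1 F z0 z1)) := by
    rw [← hr]
    field_simp
  have e4 : k / r * (r * PP r x (√t0) (√(1 - t0)) F + Lth x θ η t0 t1 F) =
      k * PP r x (√t0) (√(1 - t0)) F + k / r * Lth x θ η t0 t1 F := by
    field_simp
  rw [e3, e4] at key2
  linarith

end Vale.Agent.P146.U.R1.Gr
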