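import Vale.Agent.P146.U.H985.Gr4
import Vale.Agent.P146.U.H622.F1d

/-!
Growth of the mean squared gradient, outer exponent: the first order term, the growth inequality, and
the lower bound of the rate at a regular datum.
-/

open MeasureTheory ProbabilityTheory

namespace Vale.Agent.P146.U.R1.Gr

open Vale.Agent.P157.Lv Vale.Agent.P146.H425 Vale.Agent.P146.R1 Vale.Agent.P146.H785

set_option linter.unusedSectionVars false

variable {κ : Type} [Fintype κ] [DecidableEq κ] {F : (κ → ℝ) → ℝ} {D : κ → (κ → ℝ) → ℝ}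
  {HF : κ → κ → (κ → ℝ) → ℝ} {B L B2 x θ η l t0 t1 s c k r : ℝ}
  {Ψ : (κ → ℝ) → (κ → ℝ) → (κ → ℝ) → ℝ}

/-! ### the gradient is a martingale -/

lemma Eu_mart {ψ : (κ → ℝ) → (κ → ℝ) → ℝ} (h : C11 F D B L) (hx : 0 < x)
    (hψ : E3 fun z0 z1 _ => ψ z0 z1) (h1 : t1 ≤ s) (hs : s ≤ 1) (e : κ) :
    Eu x θ η t0 t1 s F (fun z0 z1 z2 => ψ z0 z1 * dd x s F D e z2) =
      Eu x θ η t0 t1 s F (fun z0 z1 _ => ψ z0 z1 * dd x t1 F D e z1) := by
  rw [Eu_iter h hx (hψ.mul (E3.of2 (eg_dd' h hx s e))),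
    Eu_fst (ψ := fun z0 z1 => ψ z0 z1 * dd x t1 F D e z1) h hx
      (hψ.mul (E3.of1 (eg_dd' h hx t1 e))) h1 hs]
  refine integral_congr_ae (Filter.Eventually.of_forall fun y0 => ?_)
  refine integral_congr_ae (Filter.Eventually.of_forall fun y1 => ?_)
  simp only
  set z0 := √t0 • y0 with hz0
  set z1 := z0 + √(t1 - t0) • y1 with hz1
  have hb : √(s - t1) ^ 2 + √(1 - s) ^ 2 = √(1 - t1) ^ 2 := by
    rw [Real.sq_sqrt (by linarith), Real.sq_sqrt (by linarith), Real.sq_sqrt (by linarith)]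
    ring
  have e1 := DW_step h hx hb e z1
  rw [← exp_W_step h hx hb, eq_div_iff (Real.exp_pos _).ne'] at e1
  have e2 : ∀ y2 : κ → ℝ, dn x θ η t0 t1 s F z0 z1 (z1 + √(s - t1) • y2) *
      (ψ z0 z1 * dd x s F D e (z1 + √(s - t1) • y2)) =
      (Real.exp (θ * xi x t0 t1 F z0 z1 - η * (x * uu x t0 F z0)) * ψ z0 z1) *
        (Real.exp (x * W x (√(1 - s)) F (z1 + √(s - t1) • y2)) *
          DW x (√(1 - s)) F D e (z1 + √(s - t1) • y2)) := by
    intro y2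
    unfold dn uu dd
    rw [add_sub_assoc, Real.exp_add]
    ring
  simp_rw [e2]
  rw [integral_const_mul, ← e1, add_sub_assoc, Real.exp_add]
  unfold uu dd
  ring

lemma Et_mart {ψ : (κ → ℝ) → (κ → ℝ) → ℝ} (h : C11 F D B L) (hx : 0 < x)
    (hψ : E3 fun z0 z1 _ => ψ z0 z1) (h1 : t1 ≤ s) (hs : s ≤ 1) (e : κ) :
    Et x θ η t0 t1 s F (fun z0 z1 z2 => ψ z0 z1 * dd x s F D e z2) =
      Et x θ η t0 t1 s F (fun z0 z1 _ => ψ z0 z1 * dd x t1 F D e z1) := by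
  unfold Et
  rw [Eu_mart h hx hψ h1 hs]

lemma Et_sum {ι : Type*} (S : Finset ι) (h : C11 F D B L) (hx : 0 < x)
    {Φ : ι → (κ → ℝ) → (κ → ℝ) → (κ → ℝ) → ℝ} (hΦ : ∀ i ∈ S, E3 (Φ i)) :
    Et x θ η t0 t1 s F (fun z0 z1 z2 => ∑ i ∈ S, Φ i z0 z1 z2) =
      ∑ i ∈ S, Et x θ η t0 t1 s F (Φ i) := by
  classical
  induction S using Finset.induction_on with
  | empty => simpa using Et_const (θ := θ) (η := η) (t0 := t0) (t1 := t1) (s := s) h hx 0
  | insert a S ha ih =>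
    simp only [Finset.sum_insert ha]
    rw [Et_add h hx (hΦ a (Finset.mem_insert_self a S))
      (E3.sum' S fun i hi => hΦ i (Finset.mem_insert_of_mem hi)),
      ih fun i hi => hΦ i (Finset.mem_insert_of_mem hi)]

/-- `E_θ D_s · D_{t1} = E_θ |D_{t1}|²` -/
lemma Et_dot1 (h : C11 F D B L) (hx : 0 < x) (h1 : t1 ≤ s) (hs : s ≤ 1) :
    Et x θ η t0 t1 s F (fun _ z1 z2 => ∑ e, dd x t1 F D e z1 * dd x s F D e z2) =
      Et x θ η t0 t1 s F (fun _ z1 _ => sq x t1 F D z1) := by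
  rw [Et_sum _ h hx fun e _ => (E3.of1 (eg_dd' h hx t1 e)).mul (E3.of2 (eg_dd' h hx s e))]
  have e1 : (fun (_ z1 _ : κ → ℝ) => sq x t1 F D z1) =
      fun _ z1 _ => ∑ e, dd x t1 F D e z1 * dd x t1 F D e z1 := by
    funext z0 z1 z2
    exact Finset.sum_congr rfl fun e _ => sq (dd x t1 F D e z1)
  rw [e1, Et_sum _ h hx fun e _ => (E3.of1 (eg_dd' h hx t1 e)).mul (E3.of1 (eg_dd' h hx t1 e))]
  exact Finset.sum_congr rfl fun e _ =>
    Et_mart (ψ := fun _ z1 => dd x t1 F D e z1) h hx (E3.of1 (eg_dd' h hx t1 e)) h1 hs e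

/-- `Q_θ(t1) ≤ Q_θ(s)` -/
lemma Et_sq1_le (h : C11 F D B L) (hx : 0 < x) (h1 : t1 ≤ s) (hs : s ≤ 1) :
    Et x θ η t0 t1 s F (fun _ z1 _ => sq x t1 F D z1) ≤ Qt x θ η t0 t1 s F D := by
  have h2 := Et_nonneg (θ := θ) (η := η) (t0 := t0) (t1 := t1) (s := s) h hx
    (Ψ := fun _ z1 z2 => ∑ e, (dd x s F D e z2 - dd x t1 F D e z1) ^ 2)
    (fun _ _ _ => Finset.sum_nonneg fun _ _ => sq_nonneg _)
  have e1 : (fun (_ z1 z2 : κ → ℝ) => ∑ e, (dd x s F D e z2 - dd x t1 F D e z1) ^ 2) =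
      fun _ z1 z2 => (sq x s F D z2 + sq x t1 F D z1) +
        -2 * ∑ e, dd x t1 F D e z1 * dd x s F D e z2 := by
    funext z0 z1 z2
    change _ = (∑ e, dd x s F D e z2 ^ 2 + ∑ e, dd x t1 F D e z1 ^ 2) + _
    rw [Finset.mul_sum, ← Finset.sum_add_distrib, ← Finset.sum_add_distrib]
    exact Finset.sum_congr rfl fun e _ => by ring
  have g2 : E3 fun (_ _ z2 : κ → ℝ) => sq x s F D z2 := E3.of2 (c11_uu h hx s).eg_G2
  have g1 : E3 fun (_ z1 _ : κ → ℝ) => sq x t1 F D z1 := E3.of1 (c11_uu h hx t1).eg_G2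
  have g3 : E3 fun (_ z1 z2 : κ → ℝ) => ∑ e, dd x t1 F D e z1 * dd x s F D e z2 :=
    E3.sum' _ fun e _ => (E3.of1 (eg_dd' h hx t1 e)).mul (E3.of2 (eg_dd' h hx s e))
  rw [e1, Et_add h hx (g2.add g1) (g3.const_mul _), Et_add h hx g2 g1, Et_const_mul,
    Et_dot1 h hx h1 hs] at h2
  unfold Qt
  linarith

lemma Et_sq1_nonneg (h : C11 F D B L) (hx : 0 < x) :
    0 ≤ Et x θ η t0 t1 s F (fun _ z1 _ => sq x t1 F D z1) :=
  Et_nonneg h hx fun _ _ _ => Finset.sum_nonneg fun _ _ => sq_nonneg _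

lemma Qt_nonneg (h : C11 F D B L) (hx : 0 < x) : 0 ≤ Qt x θ η t0 t1 s F D :=
  Et_nonneg h hx fun _ _ _ => Finset.sum_nonneg fun _ _ => sq_nonneg _

lemma Et_hq_nonneg (h : C11 F D B L) (hx : 0 < x) :
    0 ≤ Et x θ η t0 t1 s F (fun _ _ z2 => hq x s F D HF z2) :=
  Et_nonneg h hx fun _ _ _ => Finset.sum_nonneg fun _ _ =>
    Finset.sum_nonneg fun _ _ => sq_nonneg _

/-- the cross term with the first time -/
lemma Et_dot0_ge (h : C11 F D B L) (hx : 0 < x) (hr : 0 < r)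
    (hq0 : Et x θ η t0 t1 s F (fun z0 _ _ => sq x t0 F D z0) ≤ r ^ 2 * Qt x θ η t0 t1 s F D) :
    -(r * Qt x θ η t0 t1 s F D) ≤
      Et x θ η t0 t1 s F (fun z0 _ z2 => ∑ e, dd x s F D e z2 * dd x t0 F D e z0) := by
  have g2 : E3 fun (_ _ z2 : κ → ℝ) => sq x s F D z2 := E3.of2 (c11_uu h hx s).eg_G2
  have g0 : E3 fun (z0 _ _ : κ → ℝ) => sq x t0 F D z0 := E3.of0 (c11_uu h hx t0).eg_G2
  have g3 : E3 fun (z0 _ z2 : κ → ℝ) => ∑ e, dd x s F D e z2 * dd x t0 F D e z0 :=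
    E3.sum' _ fun e _ => (E3.of2 (eg_dd' h hx s e)).mul (E3.of0 (eg_dd' h hx t0 e))
  have h2 : Et x θ η t0 t1 s F (fun z0 _ z2 => -(r / 2) * sq x s F D z2 +
      -(1 / (2 * r)) * sq x t0 F D z0) ≤
      Et x θ η t0 t1 s F (fun z0 _ z2 => ∑ e, dd x s F D e z2 * dd x t0 F D e z0) := by
    refine Et_mono h hx ((g2.const_mul _).add (g0.const_mul _)) g3 fun z0 z1 z2 => ?_
    change -(r / 2) * ∑ e, dd x s F D e z2 ^ 2 + -(1 / (2 * r)) * ∑ e, dd x t0 F D e z0 ^ 2 ≤ _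
    rw [Finset.mul_sum, Finset.mul_sum, ← Finset.sum_add_distrib]
    refine Finset.sum_le_sum fun e _ => ?_
    have h3 : 0 ≤ (r * dd x s F D e z2 + dd x t0 F D e z0) ^ 2 / (2 * r) := by positivity
    have h4 : (r * dd x s F D e z2 + dd x t0 F D e z0) ^ 2 / (2 * r) =
        r / 2 * dd x s F D e z2 ^ 2 + dd x s F D e z2 * dd x t0 F D e z0 +
          1 / (2 * r) * dd x t0 F D e z0 ^ 2 := by
      field_simp
      ring
    rw [h4] at h3
    linarith
  rw [Et_add h hx (g2.const_mul _) (g0.const_mul _), Et_const_mul, Et_const_mul] at h2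
  have h5 : 1 / (2 * r) * Et x θ η t0 t1 s F (fun z0 _ _ => sq x t0 F D z0) ≤
      1 / (2 * r) * (r ^ 2 * Qt x θ η t0 t1 s F D) :=
    mul_le_mul_of_nonneg_left hq0 (by positivity)
  have h6 : 1 / (2 * r) * (r ^ 2 * Qt x θ η t0 t1 s F D) = r / 2 * Qt x θ η t0 t1 s F D := by
    field_simp
  rw [h6] at h5
  have h7 : Et x θ η t0 t1 s F (fun _ _ z2 => sq x s F D z2) = Qt x θ η t0 t1 s F D := rfl
  rw [h7] at h2
  linarith

/-- **The first order term.** -/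
theorem Et_Sc_le (h : C11 F D B L) (hx : 0 < x) (hη : 0 ≤ η) (hθ : 0 ≤ θ)
    (hlt : l ≤ t0) (h01 : t0 ≤ t1) (h1 : t1 ≤ s) (hls : l < s) (hs : s ≤ 1) (hr : 0 < r)
    (hq0 : Et x θ η t0 t1 s F (fun z0 _ _ => sq x t0 F D z0) ≤ r ^ 2 * Qt x θ η t0 t1 s F D) :
    Et x θ η t0 t1 s F (Sc x θ η l t0 t1 s F D) ≤
      x * (1 + θ + (θ + η) * r) * Qt x θ η t0 t1 s F D := by
  classical
  have hQ := Qt_nonneg (θ := θ) (η := η) (t0 := t0) (t1 := t1) (s := s) h hx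
  have g2 : E3 fun (_ _ z2 : κ → ℝ) => sq x s F D z2 := E3.of2 (c11_uu h hx s).eg_G2
  have g1 : E3 fun (_ z1 z2 : κ → ℝ) => ∑ e, dd x t1 F D e z1 * dd x s F D e z2 :=
    E3.sum' _ fun e _ => (E3.of1 (eg_dd' h hx t1 e)).mul (E3.of2 (eg_dd' h hx s e))
  have g0 : E3 fun (z0 _ z2 : κ → ℝ) => ∑ e, dd x s F D e z2 * dd x t0 F D e z0 :=
    E3.sum' _ fun e _ => (E3.of2 (eg_dd' h hx s e)).mul (E3.of0 (eg_dd' h hx t0 e))
  have e1 : Sc x θ η l t0 t1 s F D = fun z0 z1 z2 => (x * sq x s F D z2 +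
      θ * x * ((t1 - l) / (s - l)) * ∑ e, dd x t1 F D e z1 * dd x s F D e z2) -
      (θ + η) * x * ((t0 - l) / (s - l)) * ∑ e, dd x s F D e z2 * dd x t0 F D e z0 := by
    funext z0 z1 z2
    unfold Sc
    have : (∑ e, dd x s F D e z2 * dd x t1 F D e z1) =
        ∑ e, dd x t1 F D e z1 * dd x s F D e z2 :=
      Finset.sum_congr rfl fun e _ => mul_comm _ _
    rw [this]
    have : s - l ≠ 0 := by linarith
    field_simp
    ring
  rw [e1, Et_sub h hx ((g2.const_mul _).add (g1.const_mul _)) (g0.const_mul _),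
    Et_add h hx (g2.const_mul _) (g1.const_mul _), Et_const_mul, Et_const_mul, Et_const_mul,
    Et_dot1 h hx h1 hs]
  have h7 : Et x θ η t0 t1 s F (fun _ _ z2 => sq x s F D z2) = Qt x θ η t0 t1 s F D := rfl
  rw [h7]
  have k1 := Et_sq1_le (θ := θ) (η := η) (t0 := t0) h hx h1 hs
  have k0 := Et_sq1_nonneg (θ := θ) (η := η) (t0 := t0) (t1 := t1) (s := s) h hx
  have k2 := Et_dot0_ge h hx hr hq0
  have l1 : 0 ≤ (t1 - l) / (s - l) ∧ (t1 - l) / (s - l) ≤ 1 :=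
    ⟨div_nonneg (by linarith) (by linarith), (div_le_one (by linarith)).2 (by linarith)⟩
  have l0 : 0 ≤ (t0 - l) / (s - l) ∧ (t0 - l) / (s - l) ≤ 1 :=
    ⟨div_nonneg (by linarith) (by linarith), (div_le_one (by linarith)).2 (by linarith)⟩
  have m1 : θ * x * ((t1 - l) / (s - l)) * Et x θ η t0 t1 s F (fun _ z1 _ => sq x t1 F D z1) ≤
      θ * x * 1 * Qt x θ η t0 t1 s F D := by
    refine mul_le_mul ?_ k1 k0 (by positivity)
    exact mul_le_mul_of_nonneg_left l1.2 (by positivity)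
  have m0 : -((θ + η) * x * ((t0 - l) / (s - l)) *
      Et x θ η t0 t1 s F (fun z0 _ z2 => ∑ e, dd x s F D e z2 * dd x t0 F D e z0)) ≤
      (θ + η) * x * 1 * (r * Qt x θ η t0 t1 s F D) := by
    have m2 : (θ + η) * x * ((t0 - l) / (s - l)) *
        -(Et x θ η t0 t1 s F (fun z0 _ z2 => ∑ e, dd x s F D e z2 * dd x t0 F D e z0)) ≤
        (θ + η) * x * ((t0 - l) / (s - l)) * (r * Qt x θ η t0 t1 s F D) := by
      refine mul_le_mul_of_nonneg_left (by linarith) ?_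
      have := l0.1
      positivity
    have m3 : (θ + η) * x * ((t0 - l) / (s - l)) * (r * Qt x θ η t0 t1 s F D) ≤
        (θ + η) * x * 1 * (r * Qt x θ η t0 t1 s F D) := by
      refine mul_le_mul_of_nonneg_right ?_ (by positivity)
      exact mul_le_mul_of_nonneg_left l0.2 (by positivity)
    linarith
  linarith

/-- **The growth inequality.** `k` is the exponent on `[l, 1]` of the functional which is compared
with the law `P_{θ,η}`. -/
theorem growth (h : C2 F D HF B L B2) (hc : Cv F) (hx : 0 < x) (hk : x ≤ k)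
    (hη : 0 ≤ η) (hη1 : η < 1) (hθ : 0 ≤ θ) (hl : 0 ≤ l) (hlt : l ≤ t0) (h01 : t0 ≤ t1)
    (h1 : t1 ≤ s) (hls : l < s) (hs : s ≤ 1) (hr : 0 < r)
    (hq0 : Et x θ η t0 t1 s F (fun z0 _ _ => sq x t0 F D z0) ≤ r ^ 2 * Qt x θ η t0 t1 s F D)
    (hkr : 2 * (x * (1 + θ + (θ + η) * r)) ≤ k) :
    k * Qt x θ η t0 t1 s F D ^ 2 ≤ 8 *
      (PP ((1 - η) * x) k (√l) (√(1 - l)) F - PP ((1 - η) * x) x (√t0) (√(1 - t0)) F +
        (Lth x (2 * θ) η t0 t1 F - 2 * Lth x θ η t0 t1 F) / ((1 - η) * x)) *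
      (Qt x θ η t0 t1 s F D / (s - l) +
        Et x θ η t0 t1 s F (fun _ _ z2 => hq x s F D HF z2)) := by
  have hC := h.c1
  have hk0 : 0 < k := hx.trans_le hk
  have hy0 : 0 < (1 - η) * x := mul_pos (by linarith) hx
  have hsl : 0 < s - l := by linarith
  set Q := Qt x θ η t0 t1 s F D with hQd
  have hQ : 0 ≤ Q := Qt_nonneg hC hx
  set A := Q / (s - l) + Et x θ η t0 t1 s F (fun _ _ z2 => hq x s F D HF z2) with hA
  have hH := Et_hq_nonneg (HF := HF) (θ := θ) (η := η) (t0 := t0) (t1 := t1) (s := s) hC hx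
  have hA0 : 0 ≤ A := add_nonneg (div_nonneg hQ hsl.le) hH
  rcases hA0.eq_or_lt with hz | hApos
  · have hQ0 : Q = 0 := by
      have h2 : Q / (s - l) ≤ 0 := by linarith
      have h3 := (div_le_iff₀ hsl).1 h2
      linarith
    rw [← hz, hQ0]
    simp
  set Dl := PP ((1 - η) * x) k (√l) (√(1 - l)) F - PP ((1 - η) * x) x (√t0) (√(1 - t0)) F +
        (Lth x (2 * θ) η t0 t1 F - 2 * Lth x θ η t0 t1 F) / ((1 - η) * x) with hDl
  have key := gr_raw (c := k * Q / (2 * A)) h hc hx hk hη hη1 hθ hl hlt h01 h1 hls hs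
    (by positivity)
  have hSc := Et_Sc_le hC hx hη hθ hlt h01 h1 hls hs hr hq0
  have hxi := theta_xi_le hC hx h01 h1 hs θ η
  rw [← hQd] at hSc key
  rw [← hA] at key
  have a1 : k * Q / (2 * A) * Et x θ η t0 t1 s F (Sc x θ η l t0 t1 s F D) ≤
      k * Q / (2 * A) * (k / 2 * Q) := by
    refine mul_le_mul_of_nonneg_left (hSc.trans ?_) (by positivity)
    refine mul_le_mul_of_nonneg_right ?_ hQ
    linarith
  have a2 : k / ((1 - η) * x) * (θ * Et x θ η t0 t1 s F (fun z0 z1 _ => xi x t0 t1 F z0 z1) -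
      Lth x θ η t0 t1 F) ≤ k / ((1 - η) * x) *
        (Lth x (2 * θ) η t0 t1 F - 2 * Lth x θ η t0 t1 F) :=
    mul_le_mul_of_nonneg_left (by linarith) (by positivity)
  have a3 : k * (k * Q / (2 * A)) * Q - k * Q / (2 * A) * (k / 2 * Q) -
      (k * Q / (2 * A)) ^ 2 / 2 * A = k * (k * Q ^ 2 / (8 * A)) := by
    field_simp
    ring
  have a5 : k * Dl = k * (PP ((1 - η) * x) k (√l) (√(1 - l)) F -
      PP ((1 - η) * x) x (√t0) (√(1 - t0)) F) + k / ((1 - η) * x) *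
        (Lth x (2 * θ) η t0 t1 F - 2 * Lth x θ η t0 t1 F) := by
    rw [hDl]
    ring
  have a4 : k * (k * Q ^ 2 / (8 * A)) ≤ k * Dl := by
    rw [← a3, a5]
    linarith
  have a6 := le_of_mul_le_mul_left a4 hk0
  rw [div_le_iff₀ (by positivity)] at a6
  linarith

/-- **The lower bound of the rate.** -/
theorem rate_ge (h : C2 F D HF B L B2) (hc : Cv F) (hx : 0 < x) (hk : x ≤ k)
    (hη : 0 ≤ η) (hη1 : η < 1) (hθ : 0 ≤ θ) (hl : 0 ≤ l) (hlt : l ≤ t0) (h01 : t0 ≤ t1)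
    (h1 : t1 ≤ s) (hls : l < s) (hs : s ≤ 1) (hr : 0 < r)
    (hq0 : Et x θ η t0 t1 s F (fun z0 _ _ => sq x t0 F D z0) ≤ r ^ 2 * Qt x θ η t0 t1 s F D)
    (hkr : 2 * (x * (1 + θ + (θ + η) * r)) ≤ k)
    (hD : PP ((1 - η) * x) k (√l) (√(1 - l)) F - PP ((1 - η) * x) x (√t0) (√(1 - t0)) F +
        (Lth x (2 * θ) η t0 t1 F - 2 * Lth x θ η t0 t1 F) / ((1 - η) * x) ≤
        k * (s - l) * Qt x θ η t0 t1 s F D / 16) :
    Qt x θ η t0 t1 s F D / (s - l) ≤
      Et x θ η t0 t1 s F (fun _ _ z2 => hq x s F D HF z2) := by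
  have hC := h.c1
  have hk0 : 0 < k := hx.trans_le hk
  have hsl : 0 < s - l := by linarith
  have key := growth h hc hx hk hη hη1 hθ hl hlt h01 h1 hls hs hr hq0 hkr
  set Q := Qt x θ η t0 t1 s F D with hQd
  have hQ : 0 ≤ Q := Qt_nonneg hC hx
  have hH := Et_hq_nonneg (HF := HF) (θ := θ) (η := η) (t0 := t0) (t1 := t1) (s := s) hC hx
  set H := Et x θ η t0 t1 s F (fun _ _ z2 => hq x s F D HF z2) with hHd
  rcases hQ.eq_or_lt with hz | hQpos
  · rw [← hz]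
    simpa using hH
  have hA0 : 0 ≤ Q / (s - l) + H := add_nonneg (div_nonneg hQ hsl.le) hH
  have k1 := key.trans (mul_le_mul_of_nonneg_right (mul_le_mul_of_nonneg_left hD
    (by norm_num : (0 : ℝ) ≤ 8)) hA0)
  have e1 : 8 * (k * (s - l) * Q / 16) * (Q / (s - l) + H) =
      k * Q / 2 * (Q + (s - l) * H) := by
    field_simp
    ring
  rw [e1] at k1
  have k2 : k * Q / 2 * (2 * Q) ≤ k * Q / 2 * (Q + (s - l) * H) := by
    refine le_trans (le_of_eq ?_) k1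
    ring
  have k3 := le_of_mul_le_mul_left k2 (by positivity)
  rw [div_le_iff₀ hsl]
  linarith

/-! ### at a regular datum -/

section reg

variable {T ρ Λ N K : ℝ}

/-- **The rate at a regular datum.** The hypothesis on the functional: the increment between the
exponent `x` on `[1-T,1]` and the exponent `N x` on `[1-KT,1]` is at most a small multiple of
`N K x ρ T`. -/
theorem Reg.rate_ge (r : Reg x η T ρ Λ F) (hθ : Th θ η Λ)
    (h : C2 F D HF B L B2) (hc : Cv F) (hN : 150 * Λ ≤ N) (hK : 6 ≤ K) (hKT : K * T ≤ 1)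
    (hy : 4 ≤ yy x η T ρ) (hyl : 3 * Real.exp (-(θ * (x ^ 2 * ρ * T) / 16)) ≤ 1 / 2)
    (h1 : 1 - T / 2 ≤ s) (hs : s ≤ 1)
    (hD : PP ((1 - η) * x) (N * x) (√(1 - K * T)) (√(K * T)) F -
      PP ((1 - η) * x) x (√(1 - T)) (√T) F ≤ N * K / 24576 * (x * ρ * T)) :
    Qt x θ η (1 - T) (1 - T / 2) s F D / (K * T) ≤
      Et x θ η (1 - T) (1 - T / 2) s F (fun _ _ z2 => hq x s F D HF z2) := by
  have hC := h.c1
  have hx := r.x0
  have hT := r.T0
  have hρ := r.ρ0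
  have hΛ := r.Λ1
  have hη := r.η0
  have hη1 := r.η1
  have hθ0 := hθ.pos
  have hθ1 : θ ≤ 1 / 64 := hθ.le1 r r.Λ1 r.η0
  have hN0 : 150 ≤ N := by nlinarith
  have hKT0 : 6 * T ≤ K * T := mul_le_mul_of_nonneg_right hK hT.le
  have hlow := r.Q_low hθ hC hc h1 hs hyl
  have hm0 := r.mom_0 hθ hC hc h1 hs 1 (by simpa using hy)
  simp only [pow_one] at hm0
  set Q := Qt x θ η (1 - T) (1 - T / 2) s F D with hQd
  have hQ0 : 0 < Q := lt_of_lt_of_le (by positivity) hlow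
  have hq0 : Et x θ η (1 - T) (1 - T / 2) s F (fun z0 _ _ => sq x (1 - T) F D z0) ≤
      (68 * Λ) ^ 2 * Q := by
    refine hm0.trans ?_
    have h2 : 9 * Λ * ρ ≤ 9 * Λ * (512 * Q) := mul_le_mul_of_nonneg_left (by linarith)
      (by positivity)
    have h3 : 9 * Λ * (512 * Q) ≤ (68 * Λ) ^ 2 * Q := by
      have : 0 < Λ * Q := by positivity
      have h4 : 4608 * (Λ * Q) * 1 ≤ 4624 * (Λ * Q) * Λ := by
        refine mul_le_mul ?_ hΛ (by norm_num) (by positivity)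
        linarith
      nlinarith
    exact h2.trans h3
  have hkr : 2 * (x * (1 + θ + (θ + η) * (68 * Λ))) ≤ N * x := by
    have h2 : (θ + η) * (68 * Λ) ≤ (1 + 1 / 64) * (68 * Λ) :=
      mul_le_mul_of_nonneg_right (by linarith) (by positivity)
    have h3 : 2 * (1 + θ + (θ + η) * (68 * Λ)) ≤ N := by linarith
    have h4 := mul_le_mul_of_nonneg_right h3 hx.le
    linarith
  have e1 : 1 - (1 - K * T) = K * T := by ring
  have e2 : 1 - (1 - T) = T := by ring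
  have hsl : 0 < s - (1 - K * T) := by linarith
  have hL0 := r.L0 hC hθ0.le
  have hL2 := r.L2 hθ hC hc
  have key := Gr.rate_ge (k := N * x) (l := 1 - K * T) (r := 68 * Λ) (θ := θ) (η := η)
    (t0 := 1 - T) (t1 := 1 - T / 2) (s := s) h hc hx (by nlinarith) hη hη1 hθ0.le
    (by linarith) (by linarith) (by linarith) h1 (by linarith) hs (by positivity) hq0 hkr (by
      rw [e1, e2]
      have h2 : (Lth x (2 * θ) η (1 - T) (1 - T / 2) F - 2 * Lth x θ η (1 - T) (1 - T / 2) F) /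
          ((1 - η) * x) ≤ x * ρ * T / 32 := by
        have hy0 : 0 < (1 - η) * x := mul_pos (by linarith) hx
        rw [div_le_iff₀ hy0]
        unfold yy at hL2
        nlinarith
      have h3 : N * K / 24576 * (x * ρ * T) + x * ρ * T / 32 ≤
          N * K * (x * ρ * T) / 12288 := by
        have h4 : 150 * 6 ≤ N * K := mul_le_mul hN0 hK (by norm_num) (by linarith)
        have h5 := mul_le_mul_of_nonneg_right h4 (by positivity : 0 ≤ x * ρ * T)
        have h6 : 0 < x * ρ * T := by positivity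
        linarith
      have h6 : N * K * (x * ρ * T) / 12288 ≤ N * x * (s - (1 - K * T)) * Q / 16 := by
        have h7 : 2 / 3 * (K * T) ≤ s - (1 - K * T) := by linarith
        have h8 : 2 / 3 * (K * T) * (ρ / 512) ≤ (s - (1 - K * T)) * Q :=
          mul_le_mul h7 hlow (by positivity) (by linarith)
        have h9 := mul_le_mul_of_nonneg_left h8 (by positivity : 0 ≤ N * x / 16)
        linarith
      linarith)
  rw [← hQd] at key
  refine le_trans ?_ key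
  refine div_le_div_of_nonneg_left hQ0.le hsl ?_
  linarith

end reg

end Vale.Agent.P146.U.R1.Gr
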